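import Vale.Agent.P307.H479.E.Defs

/-! Members whose large strong substructures have bases. -/

universe u

open FirstOrder Cardinal Set Function Language

namespace Vale.Agent.P307.H4.E

open H479.E

variable {L : Language.{u, u}} {M : Type u} [L.Structure M]

/-- There is a basis, every free set in `S`, where `S` has at least `l` elements, is contained in a
basis of every `T` containing `S`, and any two bases of `M` are conjugate under the automorphisms
of `M` with `aut`. -/
def HasBasesL (l : Cardinal.{u}) (str : L.Substructure M → Prop) (aut : (M ≃[L] M) → Prop) :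
    Prop :=
  (∃ A : Set (L.Substructure M), BasisOf str ⊤ A) ∧
    (∀ S T : L.Substructure M, str S → str T → l ≤ #S → S ≤ T → ∀ A, FreeIn str S A →
      ∃ B, A ⊆ B ∧ BasisOf str T B) ∧
    ∀ A B : Set (L.Substructure M), BasisOf str ⊤ A → BasisOf str ⊤ B →
      ∃ σ : M ≃[L] M, aut σ ∧ ∀ T ∈ A, T.map σ.toHom ∈ B

/-- The strong substructures of `M` with at least `l` elements have bases. -/
def IsFreeL (K : AEC L) (l : Cardinal.{u}) (M : Type u) [L.Structure M] : Prop :=
  HasBasesL l (fun S : L.Substructure M => K.le S) fun _ => True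

theorem isFreeL_of_isFree {K : AEC L} (l : Cardinal.{u}) (h : IsFree K M) : IsFreeL K l M :=
  ⟨h.1, fun S T hS hT _ hST A hA => h.2.1 S T hS hT hST A hA, h.2.2⟩

theorem IsFreeL.mono {K : AEC L} {l l' : Cardinal.{u}} (h : IsFreeL K l M) (hl : l ≤ l') :
    IsFreeL K l' M :=
  ⟨h.1, fun S T hS hT hS' hST A hA => h.2.1 S T hS hT (hl.trans hS') hST A hA, h.2.2⟩

end Vale.Agent.P307.H4.E
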