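import Vale.Agent.P307.H4.EFam
import Vale.Agent.P307.H4.EDefsL
import Vale.Agent.P307.H227.Lg

/-! Standard position from bases of large strong substructures. -/

universe u

open FirstOrder Cardinal Set Function Language

namespace Vale.Agent.P307.H4.E

open Ow (le_map le_comap map_comap map_le_range)
open Pw (Fam strong_map_injective ind_of_sp)
open H227 (inc incl lft rgt)
open H479.E

variable {L : Language.{u, u}} {K : AEC L}

theorem card_map {M N : Type u} [L.Structure M] [L.Structure N] (θ : M ↪[L] N)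
    (S : L.Substructure M) : #(S.map θ.toHom) = #S := by
  refine le_antisymm ?_ ?_
  · have h1 : #((S.map θ.toHom : L.Substructure N) : Set N) ≤ #(S : Set M) := by
      rw [Substructure.coe_map]
      exact mk_image_le
    exact h1
  · exact mk_le_of_injective (f := fun x : S => (⟨θ x.1, ⟨x.1, x.2, rfl⟩⟩ : S.map θ.toHom))
      fun x y hxy => Subtype.ext (θ.injective (congrArg Subtype.val hxy))

theorem isFreeL_of_equiv {M N : Type u} [L.Structure M] [L.Structure N] {l : Cardinal.{u}}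
    (e : M ≃[L] N) (hM : K.mem M) (hN : K.mem N) (h : IsFreeL K l M) : IsFreeL K l N := by
  have he : K.Emb e.toEmbedding := AEC.Emb.of_equiv e hM
  have he' : K.Emb e.symm.toEmbedding := AEC.Emb.of_equiv e.symm hN
  obtain ⟨⟨A, hA⟩, h2, h3⟩ := h
  refine ⟨⟨_, by
    have h4 := basisOf_map e.toEmbedding he hA
    rwa [map_top_equiv] at h4⟩, ?_, ?_⟩
  · intro S T hS hT hSl hST A hA
    obtain ⟨B, hAB, hB⟩ := h2 (S.map e.symm.toEmbedding.toHom) (T.map e.symm.toEmbedding.toHom)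
      (le_map _ he' hS) (le_map _ he' hT) (by rwa [card_map]) (map_le_map _ hST) _
      (freeIn_map _ he' hA)
    refine ⟨(fun T => T.map e.toEmbedding.toHom) '' B, ?_, ?_⟩
    · intro T hT
      exact ⟨_, hAB ⟨T, hT, rfl⟩, map_symm_map e T⟩
    · have h4 := basisOf_map e.toEmbedding he hB
      rwa [map_symm_map] at h4
  · intro A B hA hB
    have hA' := basisOf_map e.symm.toEmbedding he' hA
    have hB' := basisOf_map e.symm.toEmbedding he' hB
    rw [map_top_equiv e.symm] at hA' hB'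
    obtain ⟨σ, -, hσ⟩ := h3 _ _ hA' hB'
    refine ⟨e.comp (σ.comp e.symm), trivial, fun T hT => ?_⟩
    obtain ⟨V, hV, hV2⟩ := hσ _ ⟨T, hT, rfl⟩
    have h5 : T.map (e.comp (σ.comp e.symm)).toHom = V := by
      rw [← map_symm_map e V]
      have h6 : V.map e.symm.toEmbedding.toHom =
          (T.map e.symm.toEmbedding.toHom).map σ.toHom := hV2
      rw [h6]
      ext x
      constructor
      · rintro ⟨y, hy, rfl⟩
        exact ⟨_, ⟨_, ⟨y, hy, rfl⟩, rfl⟩, rfl⟩
      · rintro ⟨_, ⟨_, ⟨y, hy, rfl⟩, rfl⟩, rfl⟩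
        exact ⟨y, hy, rfl⟩
    rw [h5]
    exact hV

variable {F : Fam K}

theorem std_coreL
    (hb : ∀ (I : Type u) [LinearOrder I],
      BasisOf (Str K (F.obj I)) ⊤ (range fun i : I => F.sub {i}))
    {l : Cardinal.{u}} {I J : Type u} [LinearOrder I] [LinearOrder J]
    (hf : IsFreeL K l (F.obj J)) (hI : l ≤ #(F.obj I))
    (θ : F.obj I ↪[L] F.obj J) (hθ : K.Emb θ) (S : L.Substructure (F.obj J)) (hS : K.le S)
    (hR : θ.toHom.range ≤ S) :
    ∃ (σ : F.obj J ≃[L] F.obj J) (t : I → J) (A : Set J),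
      F.Ind (σ.toEmbedding.comp θ) t ∧ S.map σ.toEmbedding.toHom = F.sub A := by
  classical
  have hl := lst_sub hb
  -- the image of the standard basis, in `S`, in `⊤`
  have h0 := freeIn_map θ hθ (hb I).1
  have hR' : (⊤ : L.Substructure (F.obj I)).map θ.toHom = θ.toHom.range :=
    (Hom.range_eq_map _).symm
  rw [hR'] at h0
  have hc : l ≤ #θ.toHom.range := by
    refine hI.trans ?_
    exact mk_le_of_injective (f := fun x : F.obj I => (⟨θ x, ⟨x, rfl⟩⟩ : θ.toHom.range))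
      fun x y hxy => θ.injective (congrArg Subtype.val hxy)
  have hc' : l ≤ #S := hc.trans (mk_le_mk_of_subset hR)
  obtain ⟨A₁, h01, hA₁⟩ := hf.2.1 θ.toHom.range S hθ hS hc hR _ h0
  obtain ⟨A₂, h12, hA₂⟩ := hf.2.1 S ⊤ hS (K.le_refl (F.mem_obj J)) hc' le_top _ hA₁.1
  obtain ⟨σ, -, hσ⟩ := hf.2.2 A₂ _ hA₂ (hb J)
  have hσK : K.Emb σ.toEmbedding := AEC.Emb.of_equiv σ (F.mem_obj J)
  have key : ∀ i : I, ∃ j : J, ((F.sub {i}).map θ.toHom).map σ.toEmbedding.toHom = F.sub {j} := by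
    intro i
    obtain ⟨j, hj⟩ := hσ _ (h12 (h01 ⟨_, ⟨i, rfl⟩, rfl⟩))
    exact ⟨j, hj.symm⟩
  choose t ht using key
  have hinj : Injective t := by
    intro i i' hii
    have h1 := ht i
    rw [hii, ← ht i'] at h1
    have h2 := strong_map_injective θ (strong_map_injective σ.toEmbedding h1)
    have h3 : ({i} : Set I) = {i'} := F.sub_inj h2
    exact singleton_injective h3
  -- least substructures are carried to least substructures
  have hcarry : ∀ (B : Set (L.Substructure (F.obj J))) (V : L.Substructure (F.obj J))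
      (A : Set J), Lst (Str K (F.obj J)) ⊤ B V →
      (fun T : L.Substructure (F.obj J) => T.map σ.toEmbedding.toHom) '' B =
        (fun j : J => F.sub {j}) '' A → V.map σ.toEmbedding.toHom = F.sub A := by
    intro B V A h1 h2
    have h3 := lst_map σ.toEmbedding hσK h1
    rw [h2, map_top_equiv] at h3
    exact lst_unique h3 (hl J A)
  refine ⟨σ, t, {j | ∃ T ∈ A₁, T.map σ.toEmbedding.toHom = F.sub {j}}, ?_, ?_⟩
  · refine ind_of_sp hinj fun A => ?_
    have h1 := lst_map θ hθ (hl I A)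
    rw [hR'] at h1
    have h2 : (fun T : L.Substructure (F.obj I) => T.map θ.toHom) ''
        ((fun i : I => F.sub {i}) '' A) ⊆ A₂ := by
      rintro _ ⟨_, ⟨i, -, rfl⟩, rfl⟩
      exact h12 (h01 ⟨_, ⟨i, rfl⟩, rfl⟩)
    have h3 := lst_top le_top hA₂.1 h2 h1
    have h4 := hcarry _ _ (t '' A) h3 (by
      ext T
      constructor
      · rintro ⟨_, ⟨_, ⟨i, hi, rfl⟩, rfl⟩, rfl⟩
        exact ⟨t i, ⟨i, hi, rfl⟩, (ht i).symm⟩
      · rintro ⟨_, ⟨i, hi, rfl⟩, rfl⟩
        exact ⟨_, ⟨_, ⟨i, hi, rfl⟩, rfl⟩, ht i⟩)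
    rw [← h4]
    ext x
    constructor
    · rintro ⟨y, hy, rfl⟩
      exact ⟨_, ⟨y, hy, rfl⟩, rfl⟩
    · rintro ⟨_, ⟨y, hy, rfl⟩, rfl⟩
      exact ⟨y, hy, rfl⟩
  · have h1 := lst_top le_top hA₂.1 h12 hA₁.2
    refine hcarry _ _ _ h1 ?_
    ext T
    constructor
    · rintro ⟨V, hV, rfl⟩
      obtain ⟨j, hj⟩ := hσ V (h12 hV)
      exact ⟨j, ⟨V, hV, hj.symm⟩, hj⟩
    · rintro ⟨j, ⟨V, hV, hj⟩, rfl⟩
      exact ⟨V, hV, hj⟩

theorem conj_coreL
    (hb : ∀ (I : Type u) [LinearOrder I],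
      BasisOf (Str K (F.obj I)) ⊤ (range fun i : I => F.sub {i}))
    {l : Cardinal.{u}} {J : Type u} [LinearOrder J]
    (hf : IsFreeL K l (F.obj J)) (S : L.Substructure (F.obj J)) (hS : K.le S) (hSl : l ≤ #S) :
    ∃ (σ : F.obj J ≃[L] F.obj J) (A : Set J), S.map σ.toEmbedding.toHom = F.sub A := by
  classical
  have h0 : FreeIn (Str K (F.obj J)) S ∅ :=
    freeIn_le hS le_top (by simp) (freeIn_subset (hb J).1 (empty_subset _))
  obtain ⟨A₁, -, hA₁⟩ := hf.2.1 S S hS hS hSl le_rfl _ h0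
  obtain ⟨A₂, h12, hA₂⟩ := hf.2.1 S ⊤ hS (K.le_refl (F.mem_obj J)) hSl le_top _ hA₁.1
  obtain ⟨σ, -, hσ⟩ := hf.2.2 A₂ _ hA₂ (hb J)
  have hσK : K.Emb σ.toEmbedding := AEC.Emb.of_equiv σ (F.mem_obj J)
  refine ⟨σ, {j | ∃ T ∈ A₁, T.map σ.toEmbedding.toHom = F.sub {j}}, ?_⟩
  have h1 := lst_top le_top hA₂.1 h12 hA₁.2
  have h3 := lst_map σ.toEmbedding hσK h1
  have h2 : (fun T : L.Substructure (F.obj J) => T.map σ.toEmbedding.toHom) '' A₁ =
      (fun j : J => F.sub {j}) '' {j | ∃ T ∈ A₁, T.map σ.toEmbedding.toHom = F.sub {j}} := by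
    ext T
    constructor
    · rintro ⟨V, hV, rfl⟩
      obtain ⟨j, hj⟩ := hσ V (h12 hV)
      exact ⟨j, ⟨V, hV, hj.symm⟩, hj⟩
    · rintro ⟨j, ⟨V, hV, hj⟩, rfl⟩
      exact ⟨V, hV, hj⟩
  rw [h2, map_top_equiv] at h3
  exact lst_unique h3 (lst_sub hb J _)

/-- At a large categoricity cardinal `κ` whose member has bases of large strong substructures,
strong embeddings of large members of the family can be moved to standard position together with
strong substructures. -/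
theorem stdAtL_conjAtL {l l' κ : Cardinal.{u}} (hK : F.Ok l) (hl : l' ≤ l) (hκ : max l ℵ₀ < κ)
    (hb : ∀ (I : Type u) [LinearOrder I],
      BasisOf (Str K (F.obj I)) ⊤ (range fun i : I => F.sub {i}))
    (hcat : K.CategoricalIn κ)
    (hfree : ∃ (M : Type u) (_ : L.Structure M), K.mem M ∧ #M = κ ∧ IsFreeL K l' M) :
    F.StdAtL l κ ∧ F.ConjAtL l κ := by
  have hf : ∀ (J : Type u) [LinearOrder J], #J = κ → IsFreeL K l' (F.obj J) := by
    intro J _ hJ
    obtain ⟨M, _, hM, hMκ, h⟩ := hfree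
    have h1 : #(F.obj J) = κ := by
      rw [Fam.card_obj hK J (by rw [hJ]; exact hκ), hJ]
    obtain ⟨e⟩ := hcat.2 M (F.obj J) hM (F.mem_obj J) hMκ h1
    exact isFreeL_of_equiv e hM (F.mem_obj J) h
  constructor
  · intro I J _ _ hJ hI θ hθ S hS hR
    refine std_coreL hb (hf J hJ) ?_ θ hθ S hS hR
    rw [Fam.card_obj hK I hI]
    exact hl.trans ((le_max_left _ _).trans hI.le)
  · intro J _ hJ S hS hSl
    exact conj_coreL hb (hf J hJ) S hS (hl.trans ((le_max_left _ _).trans hSl.le))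

end Vale.Agent.P307.H4.E
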