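import Vale.Agent.P307.Pw.Unb
import Vale.Agent.P307.Pw.Fam2
import Vale.Agent.P307.H479.E.Defs

/-! Standard position from bases of strong substructures. -/

universe u

open FirstOrder Cardinal Set Function Language

namespace Vale.Agent.P307.H4.E

open Ow (le_map le_comap map_comap map_le_range)
open Pw (Fam strong_map_injective ind_of_sp)
open H227 (inc incl lft rgt)
open H479.E

variable {L : Language.{u, u}} {K : AEC L}

/-- The strong substructures. -/
abbrev Str (K : AEC L) (M : Type u) [L.Structure M] : L.Substructure M → Prop := fun S => K.le S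

section

variable {M N : Type u} [L.Structure M] [L.Structure N]

theorem map_le_map (θ : M ↪[L] N) {S T : L.Substructure M} (h : S ≤ T) :
    S.map θ.toHom ≤ T.map θ.toHom := by
  rintro _ ⟨x, hx, rfl⟩
  exact ⟨x, h hx, rfl⟩

theorem le_of_map_le (θ : M ↪[L] N) {S T : L.Substructure M}
    (h : S.map θ.toHom ≤ T.map θ.toHom) : S ≤ T := by
  intro x hx
  obtain ⟨y, hy, hxy⟩ := h ⟨x, hx, rfl⟩
  have h1 : θ y = θ x := hxy
  rwa [← θ.injective h1]

theorem comap_le (θ : M ↪[L] N) {S : L.Substructure M} {V : L.Substructure N}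
    (h : V ≤ S.map θ.toHom) : V.comap θ.toHom ≤ S := by
  intro x hx
  obtain ⟨y, hy, hxy⟩ := h hx
  have h1 : θ y = θ x := hxy
  rwa [← θ.injective h1]

theorem lst_map (θ : M ↪[L] N) (hθ : K.Emb θ) {S : L.Substructure M}
    {B : Set (L.Substructure M)} {U : L.Substructure M} (h : Lst (Str K M) S B U) :
    Lst (Str K N) (S.map θ.toHom) ((fun T => T.map θ.toHom) '' B) (U.map θ.toHom) := by
  refine ⟨le_map θ hθ h.1, map_le_map θ h.2.1, ?_, ?_⟩
  · rintro _ ⟨T, hT, rfl⟩
    exact map_le_map θ (h.2.2.1 T hT)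
  · intro V hV hVR hB
    have h1 : V ≤ θ.toHom.range := hVR.trans (map_le_range θ S)
    rw [← map_comap θ h1]
    refine map_le_map θ (h.2.2.2 _ (le_comap θ hθ hV h1) (comap_le θ hVR) ?_)
    intro T hT x hx
    exact hB _ ⟨T, hT, rfl⟩ ⟨x, hx, rfl⟩

theorem lst_unique {str : L.Substructure M → Prop} {S : L.Substructure M}
    {B : Set (L.Substructure M)} {U V : L.Substructure M} (h : Lst str S B U)
    (h' : Lst str S B V) : U = V :=
  le_antisymm (h.2.2.2 V h'.1 h'.2.1 h'.2.2.1) (h'.2.2.2 U h.1 h.2.1 h.2.2.1)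

/-- Least substructures over subsets of a free set are absolute. -/
theorem lst_top {str : L.Substructure M → Prop} {S T : L.Substructure M} (hST : S ≤ T)
    {A B : Set (L.Substructure M)} (hA : FreeIn str T A) (hB : B ⊆ A) {U : L.Substructure M}
    (h : Lst str S B U) : Lst str T B U := by
  obtain ⟨V, hV, -⟩ := hA.2.2 B hB
  have h1 : V ≤ U := hV.2.2.2 U h.1 (h.2.1.trans hST) h.2.2.1
  have h2 : U ≤ V := h.2.2.2 V hV.1 (h1.trans h.2.1) hV.2.2.1
  rw [le_antisymm h2 h1]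
  exact hV

theorem freeIn_map (θ : M ↪[L] N) (hθ : K.Emb θ) {S : L.Substructure M}
    {A : Set (L.Substructure M)} (h : FreeIn (Str K M) S A) :
    FreeIn (Str K N) (S.map θ.toHom) ((fun T => T.map θ.toHom) '' A) := by
  refine ⟨?_, ?_, ?_⟩
  · rintro _ ⟨T, hT, rfl⟩
    exact ⟨le_map θ hθ (h.1 T hT).1, map_le_map θ (h.1 T hT).2⟩
  · rintro _ ⟨T, hT, rfl⟩ V hV hVT
    have h1 : V ≤ θ.toHom.range := hVT.trans (map_le_range θ T)
    rcases h.2.1 T hT (V.comap θ.toHom) (le_comap θ hθ hV h1) (comap_le θ hVT) with h2 | h2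
    · left
      change V = T.map θ.toHom
      rw [← h2, map_comap θ h1]
    · right
      have h3 := lst_map θ hθ h2
      rwa [image_empty, map_comap θ h1] at h3
  · intro B hB
    obtain ⟨U, hU, hU2⟩ := h.2.2 {T | T ∈ A ∧ T.map θ.toHom ∈ B} fun T hT => hT.1
    have h1 : (fun T : L.Substructure M => T.map θ.toHom) '' {T | T ∈ A ∧ T.map θ.toHom ∈ B} =
        B := by
      ext V
      constructor
      · rintro ⟨T, hT, rfl⟩
        exact hT.2
      · intro hV
        obtain ⟨T, hT, rfl⟩ := hB hV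
        exact ⟨T, ⟨hT, hV⟩, rfl⟩
    refine ⟨U.map θ.toHom, ?_, ?_⟩
    · have h2 := lst_map θ hθ hU
      rwa [h1] at h2
    · rintro _ ⟨T, hT, rfl⟩ hTU
      exact (hU2 T hT (le_of_map_le θ hTU)).2

theorem basisOf_map (θ : M ↪[L] N) (hθ : K.Emb θ) {S : L.Substructure M}
    {A : Set (L.Substructure M)} (h : BasisOf (Str K M) S A) :
    BasisOf (Str K N) (S.map θ.toHom) ((fun T => T.map θ.toHom) '' A) :=
  ⟨freeIn_map θ hθ h.1, lst_map θ hθ h.2⟩

theorem map_symm_map (e : M ≃[L] N) (S : L.Substructure N) :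
    (S.map e.symm.toEmbedding.toHom).map e.toEmbedding.toHom = S := by
  ext x
  constructor
  · rintro ⟨_, ⟨y, hy, rfl⟩, rfl⟩
    have h1 : e (e.symm y) = y := e.apply_symm_apply y
    change e (e.symm y) ∈ S
    rwa [h1]
  · intro hx
    exact ⟨e.symm x, ⟨x, hx, rfl⟩, e.apply_symm_apply x⟩

theorem map_map_symm (e : M ≃[L] N) (S : L.Substructure M) :
    (S.map e.toEmbedding.toHom).map e.symm.toEmbedding.toHom = S := by
  ext x
  constructor
  · rintro ⟨_, ⟨y, hy, rfl⟩, rfl⟩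
    have h1 : e.symm (e y) = y := e.symm_apply_apply y
    change e.symm (e y) ∈ S
    rwa [h1]
  · intro hx
    exact ⟨e x, ⟨x, hx, rfl⟩, e.symm_apply_apply x⟩

theorem map_top_equiv (e : M ≃[L] N) :
    (⊤ : L.Substructure M).map e.toEmbedding.toHom = ⊤ := by
  rw [eq_top_iff]
  intro x _
  exact ⟨e.symm x, trivial, e.apply_symm_apply x⟩

theorem isFree_of_equiv (e : M ≃[L] N) (hM : K.mem M) (hN : K.mem N) (h : IsFree K M) :
    IsFree K N := by
  have he : K.Emb e.toEmbedding := AEC.Emb.of_equiv e hM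
  have he' : K.Emb e.symm.toEmbedding := AEC.Emb.of_equiv e.symm hN
  obtain ⟨⟨A, hA⟩, h2, h3⟩ := h
  refine ⟨⟨_, by
    have h4 := basisOf_map e.toEmbedding he hA
    rwa [map_top_equiv] at h4⟩, ?_, ?_⟩
  · intro S T hS hT hST A hA
    obtain ⟨B, hAB, hB⟩ := h2 (S.map e.symm.toEmbedding.toHom) (T.map e.symm.toEmbedding.toHom)
      (le_map _ he' hS) (le_map _ he' hT) (map_le_map _ hST) _ (freeIn_map _ he' hA)
    refine ⟨(fun T => T.map e.toEmbedding.toHom) '' B, ?_, ?_⟩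
    · intro T hT
      exact ⟨_, hAB ⟨T, hT, rfl⟩, map_symm_map e T⟩
    · have h4 := basisOf_map e.toEmbedding he hB
      rwa [map_symm_map] at h4
  · intro A B hA hB
    have hA' := basisOf_map e.symm.toEmbedding he' hA
    have hB' := basisOf_map e.symm.toEmbedding he' hB
    rw [map_top_equiv e.symm] at hA' hB'
    obtain ⟨σ, -, hσ⟩ := h3 _ _ hA' hB'
    refine ⟨e.comp (σ.comp e.symm), trivial, fun T hT => ?_⟩
    obtain ⟨V, hV, hV2⟩ := hσ _ ⟨T, hT, rfl⟩
    have h5 : T.map (e.comp (σ.comp e.symm)).toHom = V := by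
      rw [← map_symm_map e V]
      have h6 : V.map e.symm.toEmbedding.toHom =
          (T.map e.symm.toEmbedding.toHom).map σ.toHom := hV2
      rw [h6]
      ext x
      constructor
      · rintro ⟨y, hy, rfl⟩
        exact ⟨_, ⟨_, ⟨y, hy, rfl⟩, rfl⟩, rfl⟩
      · rintro ⟨_, ⟨_, ⟨y, hy, rfl⟩, rfl⟩, rfl⟩
        exact ⟨y, hy, rfl⟩
    rw [h5]
    exact hV

end

section

variable {F : Fam K}

theorem sub_map (F : Fam K) {I J : Type u} [LinearOrder I] [LinearOrder J] (t : I ↪o J)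
    (A : Set I) : (F.sub A).map (F.map t).toHom = F.sub (t '' A) := by
  ext y
  constructor
  · rintro ⟨x, hx, rfl⟩
    exact (F.map_mem_sub_image t).2 hx
  · intro hy
    obtain ⟨x, rfl⟩ := (F.mem_range_map t).2 (F.sub_mono (image_subset_range _ _) hy)
    exact ⟨x, (F.map_mem_sub_image t).1 hy, rfl⟩

theorem sub_univ_eq (F : Fam K) (I : Type u) [LinearOrder I] : F.sub (univ : Set I) = ⊤ :=
  eq_top_iff.2 fun a _ => F.sub_univ a

/-- `F.sub A` is the least strong substructure above the `F.sub {i}`, `i ∈ A`. -/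
theorem lst_sub
    (hb : ∀ (I : Type u) [LinearOrder I],
      BasisOf (Str K (F.obj I)) ⊤ (range fun i : I => F.sub {i}))
    (I : Type u) [LinearOrder I] (A : Set I) :
    Lst (Str K (F.obj I)) ⊤ ((fun i : I => F.sub {i}) '' A) (F.sub A) := by
  have h1 := lst_map (F.map (inc A)) (F.emb_map (inc A)) (hb A).2
  have h2 : (⊤ : L.Substructure (F.obj A)).map (F.map (inc A)).toHom = F.sub A := by
    rw [← sub_univ_eq F A, sub_map]
    congr 1
    ext x
    constructor
    · rintro ⟨y, -, rfl⟩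
      exact y.2
    · intro hx
      exact ⟨⟨x, hx⟩, trivial, rfl⟩
  have h3 : (fun T : L.Substructure (F.obj A) => T.map (F.map (inc A)).toHom) ''
      (range fun i : A => F.sub {i}) = (fun i : I => F.sub {i}) '' A := by
    ext T
    constructor
    · rintro ⟨_, ⟨i, rfl⟩, rfl⟩
      refine ⟨i.1, i.2, ?_⟩
      change F.sub {i.1} = (F.sub {i}).map (F.map (inc A)).toHom
      rw [sub_map, image_singleton]
      rfl
    · rintro ⟨i, hi, rfl⟩
      refine ⟨F.sub {(⟨i, hi⟩ : A)}, ⟨⟨i, hi⟩, rfl⟩, ?_⟩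
      change (F.sub {(⟨i, hi⟩ : A)}).map (F.map (inc A)).toHom = F.sub {i}
      rw [sub_map, image_singleton]
      rfl
  rw [h2, h3] at h1
  exact lst_top le_top (hb I).1 (image_subset_range _ _) h1

theorem std_core
    (hb : ∀ (I : Type u) [LinearOrder I],
      BasisOf (Str K (F.obj I)) ⊤ (range fun i : I => F.sub {i}))
    {I J : Type u} [LinearOrder I] [LinearOrder J] (hf : IsFree K (F.obj J))
    (θ : F.obj I ↪[L] F.obj J) (hθ : K.Emb θ) (S : L.Substructure (F.obj J)) (hS : K.le S)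
    (hR : θ.toHom.range ≤ S) :
    ∃ (σ : F.obj J ≃[L] F.obj J) (t : I → J) (A : Set J),
      F.Ind (σ.toEmbedding.comp θ) t ∧ S.map σ.toEmbedding.toHom = F.sub A := by
  classical
  have hl := lst_sub hb
  -- the image of the standard basis, in `S`, in `⊤`
  have h0 := freeIn_map θ hθ (hb I).1
  have hR' : (⊤ : L.Substructure (F.obj I)).map θ.toHom = θ.toHom.range :=
    (Hom.range_eq_map _).symm
  rw [hR'] at h0
  obtain ⟨A₁, h01, hA₁⟩ := hf.2.1 θ.toHom.range S hθ hS hR _ h0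
  obtain ⟨A₂, h12, hA₂⟩ := hf.2.1 S ⊤ hS (K.le_refl (F.mem_obj J)) le_top _ hA₁.1
  obtain ⟨σ, -, hσ⟩ := hf.2.2 A₂ _ hA₂ (hb J)
  have hσK : K.Emb σ.toEmbedding := AEC.Emb.of_equiv σ (F.mem_obj J)
  have key : ∀ i : I, ∃ j : J, ((F.sub {i}).map θ.toHom).map σ.toEmbedding.toHom = F.sub {j} := by
    intro i
    obtain ⟨j, hj⟩ := hσ _ (h12 (h01 ⟨_, ⟨i, rfl⟩, rfl⟩))
    exact ⟨j, hj.symm⟩
  choose t ht using key
  have hinj : Injective t := by
    intro i i' hii
    have h1 := ht i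
    rw [hii, ← ht i'] at h1
    have h2 := strong_map_injective θ (strong_map_injective σ.toEmbedding h1)
    have h3 : ({i} : Set I) = {i'} := F.sub_inj h2
    exact singleton_injective h3
  -- least substructures are carried to least substructures
  have hcarry : ∀ (B : Set (L.Substructure (F.obj J))) (V : L.Substructure (F.obj J))
      (A : Set J), Lst (Str K (F.obj J)) ⊤ B V →
      (fun T : L.Substructure (F.obj J) => T.map σ.toEmbedding.toHom) '' B =
        (fun j : J => F.sub {j}) '' A → V.map σ.toEmbedding.toHom = F.sub A := by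
    intro B V A h1 h2
    have h3 := lst_map σ.toEmbedding hσK h1
    rw [h2, map_top_equiv] at h3
    exact lst_unique h3 (hl J A)
  refine ⟨σ, t, {j | ∃ T ∈ A₁, T.map σ.toEmbedding.toHom = F.sub {j}}, ?_, ?_⟩
  · refine ind_of_sp hinj fun A => ?_
    have h1 := lst_map θ hθ (hl I A)
    rw [hR'] at h1
    have h2 : (fun T : L.Substructure (F.obj I) => T.map θ.toHom) ''
        ((fun i : I => F.sub {i}) '' A) ⊆ A₂ := by
      rintro _ ⟨_, ⟨i, -, rfl⟩, rfl⟩
      exact h12 (h01 ⟨_, ⟨i, rfl⟩, rfl⟩)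
    have h3 := lst_top le_top hA₂.1 h2 h1
    have h4 := hcarry _ _ (t '' A) h3 (by
      ext T
      constructor
      · rintro ⟨_, ⟨_, ⟨i, hi, rfl⟩, rfl⟩, rfl⟩
        exact ⟨t i, ⟨i, hi, rfl⟩, (ht i).symm⟩
      · rintro ⟨_, ⟨i, hi, rfl⟩, rfl⟩
        exact ⟨_, ⟨_, ⟨i, hi, rfl⟩, rfl⟩, ht i⟩)
    rw [← h4]
    ext x
    constructor
    · rintro ⟨y, hy, rfl⟩
      exact ⟨_, ⟨y, hy, rfl⟩, rfl⟩
    · rintro ⟨_, ⟨y, hy, rfl⟩, rfl⟩
      exact ⟨y, hy, rfl⟩
  · have h1 := lst_top le_top hA₂.1 h12 hA₁.2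
    refine hcarry _ _ _ h1 ?_
    ext T
    constructor
    · rintro ⟨V, hV, rfl⟩
      obtain ⟨j, hj⟩ := hσ V (h12 hV)
      exact ⟨j, ⟨V, hV, hj.symm⟩, hj⟩
    · rintro ⟨j, ⟨V, hV, hj⟩, rfl⟩
      exact ⟨V, hV, hj⟩

/-- At a large categoricity cardinal `κ` whose member has bases of strong substructures, strong
embeddings can be moved to standard position together with strong substructures. -/
theorem stdAt_conjAt {l κ : Cardinal.{u}} (hK : F.Ok l) (hκ : max l ℵ₀ < κ)
    (hb : ∀ (I : Type u) [LinearOrder I],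
      BasisOf (Str K (F.obj I)) ⊤ (range fun i : I => F.sub {i}))
    (hcat : K.CategoricalIn κ)
    (hfree : ∃ (M : Type u) (_ : L.Structure M), K.mem M ∧ #M = κ ∧ IsFree K M) :
    F.StdAt κ ∧ F.ConjAt κ := by
  have hf : ∀ (J : Type u) [LinearOrder J], #J = κ → IsFree K (F.obj J) := by
    intro J _ hJ
    obtain ⟨M, _, hM, hMκ, h⟩ := hfree
    have h1 : #(F.obj J) = κ := by
      rw [Fam.card_obj hK J (by rw [hJ]; exact hκ), hJ]
    obtain ⟨e⟩ := hcat.2 M (F.obj J) hM (F.mem_obj J) hMκ h1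
    exact isFree_of_equiv e hM (F.mem_obj J) h
  have hstd : F.StdAt κ := by
    intro I J _ _ hJ θ hθ S hS hR
    exact std_core hb (hf J hJ) θ hθ S hS hR
  refine ⟨hstd, ?_⟩
  intro J _ hJ S hS
  obtain ⟨σ, -, A, -, h⟩ := hstd (∅ : Set J) J hJ (F.map (inc ∅)) (F.emb_map _) S hS (by
    have h1 := lst_sub hb J ∅
    rw [image_empty] at h1
    exact h1.2.2.2 S hS le_top (by simp))
  exact ⟨σ, A, h⟩

end

end Vale.Agent.P307.H4.E
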