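import Vale.Agent.P307.H4.EStdL
import Vale.Agent.P307.Fm.Defs

/-! Standard position from frames of strong substructures. -/

universe u

open FirstOrder Cardinal Set Function Language

namespace Vale.Agent.P307.H4.F

open Ow (le_map le_comap map_comap map_le_range)
open Pw (Fam strong_map_injective ind_of_sp)
open H227 (inc incl lft rgt)
open H4.E (Str card_map map_le_map le_of_map_le comap_le map_symm_map map_map_symm map_top_equiv)
open Fm

variable {L : Language.{u, u}} {K : AEC L}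

section

variable {M N : Type u} [L.Structure M] [L.Structure N]

theorem frameIn_map (θ : M ↪[L] N) (hθ : K.Emb θ) {S : L.Substructure M} {X : Type u}
    {A : Finset X → L.Substructure M} (h : FrameIn (Str K M) S A) :
    FrameIn (Str K N) (S.map θ.toHom) (fun s => (A s).map θ.toHom) := by
  obtain ⟨h1, h2, h3, h4⟩ := h
  refine ⟨fun s => ⟨le_map θ hθ (h1 s).1, map_le_map θ (h1 s).2⟩, fun s t r hr => ?_,
    fun s t hst => h3 s t (le_of_map_le θ hst), fun s V hV hVA hVt => ?_⟩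
  · change (A s).map θ.toHom ⊓ (A t).map θ.toHom = (A r).map θ.toHom
    rw [← h2 s t r hr]
    ext y
    constructor
    · rintro ⟨⟨x, hx, rfl⟩, ⟨x', hx', hxx⟩⟩
      have h5 : θ x' = θ x := hxx
      rw [θ.injective h5] at hx'
      exact ⟨x, ⟨hx, hx'⟩, rfl⟩
    · rintro ⟨x, ⟨hx, hx'⟩, rfl⟩
      exact ⟨⟨x, hx, rfl⟩, ⟨x, hx', rfl⟩⟩
  · have h5 : V ≤ θ.toHom.range := hVA.trans (map_le_range θ _)
    rcases h4 s (V.comap θ.toHom) (le_comap θ hθ hV h5) (comap_le θ hVA)
      fun t ht x hx => hVt t ht ⟨x, hx, rfl⟩ with h6 | ⟨t, ht, h6⟩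
    · left
      change V = (A s).map θ.toHom
      rw [← h6, map_comap θ h5]
    · right
      refine ⟨t, ht, ?_⟩
      change V = (A t).map θ.toHom
      rw [← h6, map_comap θ h5]

theorem frameOf_map (θ : M ↪[L] N) (hθ : K.Emb θ) {S : L.Substructure M} {X : Type u}
    {A : Finset X → L.Substructure M} (h : FrameOf (Str K M) S A) :
    FrameOf (Str K N) (S.map θ.toHom) (fun s => (A s).map θ.toHom) := by
  refine ⟨frameIn_map θ hθ h.1, ?_⟩
  rintro _ ⟨x, hx, rfl⟩
  obtain ⟨s, hs⟩ := h.2 x hx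
  exact ⟨s, x, hs, rfl⟩

theorem isFramed_of_equiv {l : Cardinal.{u}} (e : M ≃[L] N) (hM : K.mem M) (hN : K.mem N)
    (h : IsFramed K l M) : IsFramed K l N := by
  have he : K.Emb e.toEmbedding := AEC.Emb.of_equiv e hM
  have he' : K.Emb e.symm.toEmbedding := AEC.Emb.of_equiv e.symm hN
  obtain ⟨h1, h2, h3⟩ := h
  refine ⟨fun S hS hSl => ?_, fun S T hS hT hSl hST X A hA => ?_, fun X Y A B hA hB => ?_⟩
  · obtain ⟨X, A, hA⟩ := h1 (S.map e.symm.toEmbedding.toHom) (le_map _ he' hS)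
      (by rwa [card_map])
    have h4 := frameOf_map e.toEmbedding he hA
    rw [map_symm_map] at h4
    exact ⟨X, _, h4⟩
  · obtain ⟨Y, j, B, hB, hBA⟩ := h2 (S.map e.symm.toEmbedding.toHom)
      (T.map e.symm.toEmbedding.toHom) (le_map _ he' hS) (le_map _ he' hT) (by rwa [card_map])
      (map_le_map _ hST) X _ (frameIn_map _ he' hA)
    have h4 := frameOf_map e.toEmbedding he hB
    rw [map_symm_map] at h4
    refine ⟨Y, j, _, h4, fun s => ?_⟩
    rw [hBA]
    exact map_symm_map e (A s)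
  · have hA' := frameOf_map e.symm.toEmbedding he' hA
    have hB' := frameOf_map e.symm.toEmbedding he' hB
    rw [map_top_equiv e.symm] at hA' hB'
    obtain ⟨σ, j, -, hσ⟩ := h3 X Y _ _ hA' hB'
    refine ⟨e.comp (σ.comp e.symm), j, trivial, fun s => ?_⟩
    rw [← map_symm_map e (B (s.map j))]
    have h6 : ((A s).map e.symm.toEmbedding.toHom).map σ.toHom =
        (B (s.map j)).map e.symm.toEmbedding.toHom := hσ s
    rw [← h6]
    ext x
    constructor
    · rintro ⟨y, hy, rfl⟩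
      exact ⟨_, ⟨_, ⟨y, hy, rfl⟩, rfl⟩, rfl⟩
    · rintro ⟨_, ⟨_, ⟨y, hy, rfl⟩, rfl⟩, rfl⟩
      exact ⟨y, hy, rfl⟩

end

variable {F : Fam K}

/-- `F.sub A` is the union of the `F.sub s` for the finite subsets `s` of `A`. -/
theorem mem_sub_iff {I : Type u} [LinearOrder I] {A : Set I} {x : F.obj I} :
    x ∈ F.sub A ↔ ∃ s : Finset I, (s : Set I) ⊆ A ∧ x ∈ F.sub (s : Set I) := by
  constructor
  · intro hx
    obtain ⟨s, hs1, hs2, hs3⟩ := Fam.fin_sub hx
    refine ⟨hs2.toFinset, ?_, ?_⟩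
    · rwa [Set.Finite.coe_toFinset]
    · rwa [Set.Finite.coe_toFinset]
  · rintro ⟨s, hs, hx⟩
    exact F.sub_mono hs hx

/-- Frames of strong substructures go to standard ones. -/
theorem frame_core
    (hb : ∀ (I : Type u) [LinearOrder I],
      FrameOf (Str K (F.obj I)) ⊤ (fun s : Finset I => F.sub (s : Set I)))
    {l : Cardinal.{u}} {J : Type u} [LinearOrder J] (hf : IsFramed K l (F.obj J))
    (S : L.Substructure (F.obj J)) (hS : K.le S) (hSl : l ≤ #S) {Y : Type u}
    {B : Finset Y → L.Substructure (F.obj J)} (hB : FrameOf (Str K (F.obj J)) S B) :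
    ∃ (σ : F.obj J ≃[L] F.obj J) (j : Y ↪ J),
      (∀ s, (B s).map σ.toEmbedding.toHom = F.sub ((s.map j : Finset J) : Set J)) ∧
      S.map σ.toEmbedding.toHom = F.sub (range j) := by
  obtain ⟨Y₂, j₂, B₂, hB₂, h12⟩ := hf.2.1 S ⊤ hS (K.le_refl (F.mem_obj J)) hSl le_top Y B hB.1
  obtain ⟨σ, j, -, hσ⟩ := hf.2.2 Y₂ J B₂ _ hB₂ (hb J)
  have h1 : ∀ s, (B s).map σ.toEmbedding.toHom =
      F.sub ((s.map (j₂.trans j) : Finset J) : Set J) := by
    intro s
    rw [← h12 s, ← Finset.map_map]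
    exact hσ (s.map j₂)
  refine ⟨σ, j₂.trans j, h1, ?_⟩
  ext x
  constructor
  · rintro ⟨y, hy, rfl⟩
    obtain ⟨s, hs⟩ := hB.2 y hy
    have h2 : σ.toEmbedding.toHom y ∈ (B s).map σ.toEmbedding.toHom := ⟨y, hs, rfl⟩
    rw [h1] at h2
    refine F.sub_mono ?_ h2
    rw [Finset.coe_map]
    exact image_subset_range _ _
  · intro hx
    obtain ⟨s, hs, hxs⟩ := mem_sub_iff.1 hx
    classical
    obtain ⟨s', hs'⟩ : ∃ s' : Finset Y, s'.map (j₂.trans j) = s := by
      refine ⟨s.preimage (j₂.trans j) ((j₂.trans j).injective.injOn), ?_⟩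
      ext y
      rw [Finset.mem_map]
      constructor
      · rintro ⟨z, hz, rfl⟩
        exact Finset.mem_preimage.1 hz
      · intro hy
        obtain ⟨z, rfl⟩ := hs hy
        exact ⟨z, Finset.mem_preimage.2 hy, rfl⟩
    rw [← hs', ← h1] at hxs
    obtain ⟨y, hy, rfl⟩ := hxs
    exact ⟨y, (hB.1.1 s').2 hy, rfl⟩

theorem std_coreF
    (hb : ∀ (I : Type u) [LinearOrder I],
      FrameOf (Str K (F.obj I)) ⊤ (fun s : Finset I => F.sub (s : Set I)))
    {l : Cardinal.{u}} {I J : Type u} [LinearOrder I] [LinearOrder J]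
    (hf : IsFramed K l (F.obj J)) (hI : l ≤ #(F.obj I))
    (θ : F.obj I ↪[L] F.obj J) (hθ : K.Emb θ) (S : L.Substructure (F.obj J)) (hS : K.le S)
    (hR : θ.toHom.range ≤ S) :
    ∃ (σ : F.obj J ≃[L] F.obj J) (t : I → J) (A : Set J),
      F.Ind (σ.toEmbedding.comp θ) t ∧ S.map σ.toEmbedding.toHom = F.sub A := by
  classical
  have h0 := frameIn_map θ hθ (hb I).1
  have hR' : (⊤ : L.Substructure (F.obj I)).map θ.toHom = θ.toHom.range :=
    (Hom.range_eq_map _).symm
  rw [hR'] at h0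
  have hc : l ≤ #θ.toHom.range := by
    refine hI.trans ?_
    exact mk_le_of_injective (f := fun x : F.obj I => (⟨θ x, ⟨x, rfl⟩⟩ : θ.toHom.range))
      fun x y hxy => θ.injective (congrArg Subtype.val hxy)
  have hc' : l ≤ #S := hc.trans (mk_le_mk_of_subset hR)
  obtain ⟨Y, j₁, B, hB, hBA⟩ := hf.2.1 θ.toHom.range S hθ hS hc hR I _ h0
  obtain ⟨σ, j, h1, h2⟩ := frame_core hb hf S hS hc' hB
  refine ⟨σ, j₁.trans j, range j, ?_, h2⟩
  have h3 : ∀ s : Finset I, ((F.sub (s : Set I)).map θ.toHom).map σ.toEmbedding.toHom =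
      F.sub ((s.map (j₁.trans j) : Finset J) : Set J) := by
    intro s
    rw [← Finset.map_map, ← h1]
    congr 1
    exact (hBA s).symm
  refine ind_of_sp (j₁.trans j).injective fun A => ?_
  ext x
  constructor
  · rintro ⟨y, hy, rfl⟩
    obtain ⟨s, hs, hys⟩ := mem_sub_iff.1 hy
    have h4 : σ (θ y) ∈ ((F.sub (s : Set I)).map θ.toHom).map σ.toEmbedding.toHom :=
      ⟨θ y, ⟨y, hys, rfl⟩, rfl⟩
    rw [h3] at h4
    refine F.sub_mono ?_ h4
    rw [Finset.coe_map]
    exact image_mono hs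
  · intro hx
    obtain ⟨s, hs, hxs⟩ := mem_sub_iff.1 hx
    obtain ⟨s', hs', hss⟩ : ∃ s' : Finset I, (s' : Set I) ⊆ A ∧ s'.map (j₁.trans j) = s := by
      have hpre : ∀ y, y ∈ s.preimage (j₁.trans j) ((j₁.trans j).injective.injOn) ↔
          (j₁.trans j) y ∈ s := fun y => Finset.mem_preimage
      refine ⟨s.preimage (j₁.trans j) ((j₁.trans j).injective.injOn), ?_, ?_⟩
      · intro y hy
        obtain ⟨z, hz, hzy⟩ := hs ((hpre y).1 hy)
        rwa [← (j₁.trans j).injective hzy]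
      · ext y
        rw [Finset.mem_map]
        constructor
        · rintro ⟨z, hz, rfl⟩
          exact (hpre z).1 hz
        · intro hy
          obtain ⟨z, hz, rfl⟩ := hs hy
          exact ⟨z, (hpre z).2 hy, rfl⟩
    rw [← hss, ← h3] at hxs
    obtain ⟨_, ⟨y, hy, rfl⟩, rfl⟩ := hxs
    exact ⟨y, F.sub_mono hs' hy, rfl⟩

/-- At a large categoricity cardinal `κ` whose member has frames of large strong substructures,
strong embeddings of large members of the family can be moved to standard position together with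
strong substructures. -/
theorem stdAtL_conjAtL_framed {l l' κ : Cardinal.{u}} (hK : F.Ok l) (hl : l' ≤ l)
    (hκ : max l ℵ₀ < κ)
    (hb : ∀ (I : Type u) [LinearOrder I],
      FrameOf (fun S : L.Substructure (F.obj I) => K.le S) ⊤
        (fun s : Finset I => F.sub (s : Set I)))
    (hcat : K.CategoricalIn κ)
    (hfree : ∃ (M : Type u) (_ : L.Structure M), K.mem M ∧ #M = κ ∧ IsFramed K l' M) :
    F.StdAtL l κ ∧ F.ConjAtL l κ := by
  have hf : ∀ (J : Type u) [LinearOrder J], #J = κ → IsFramed K l' (F.obj J) := by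
    intro J _ hJ
    obtain ⟨M, _, hM, hMκ, h⟩ := hfree
    have h1 : #(F.obj J) = κ := by
      rw [Fam.card_obj hK J (by rw [hJ]; exact hκ), hJ]
    obtain ⟨e⟩ := hcat.2 M (F.obj J) hM (F.mem_obj J) hMκ h1
    exact isFramed_of_equiv e hM (F.mem_obj J) h
  constructor
  · intro I J _ _ hJ hI θ hθ S hS hR
    refine std_coreF hb (hf J hJ) ?_ θ hθ S hS hR
    rw [Fam.card_obj hK I hI]
    exact hl.trans ((le_max_left _ _).trans hI.le)
  · intro J _ hJ S hS hSl
    have h0 : l' ≤ #S := hl.trans ((le_max_left _ _).trans hSl.le)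
    obtain ⟨Y, B, hB⟩ := (hf J hJ).1 S hS h0
    obtain ⟨σ, j, -, h2⟩ := frame_core hb (hf J hJ) S hS h0 hB
    exact ⟨σ, range j, h2⟩

end Vale.Agent.P307.H4.F
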