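import Vale.Agent.P307.H4.Base
import Vale.Agent.P307.Ow.Flasque
import Vale.Agent.P307.H67.Thresh

/-!
Categoricity transfer for classes with a family indexed by linear orders.
-/

universe u

open FirstOrder Cardinal Function Language

namespace Vale.Agent.P307.H4

open H227

variable {L : Language.{u, u}}

/-- A class with a family indexed by linear orders which is categorical in arbitrarily large
cardinals is categorical in all sufficiently large cardinals. -/
theorem eventually_of_fam {K : AEC L} (F : Fam K)
    (h : ∀ χ : Cardinal.{u}, ∃ κ, χ ≤ κ ∧ K.CategoricalIn κ) :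
    ∃ χ : Cardinal.{u}, ∀ κ, χ ≤ κ → K.CategoricalIn κ := by
  obtain ⟨l, hK⟩ := F.exists_ok
  have hF : F.Moves := Fam.moves_of_unbounded hK h
  obtain ⟨k, h1, h2, -, h4, h5⟩ := (F.toOSys hF).flasque {κ | max l ℵ₀ < κ ∧ K.CategoricalIn κ} (by
    intro a
    obtain ⟨κ, h1, h2⟩ := h (max a (Order.succ (max l ℵ₀)))
    exact ⟨κ, ⟨Order.succ_le_iff.1 ((le_max_right _ _).trans h1), h2⟩,
      (le_max_left _ _).trans h1⟩)
  have hbdd : BddAbove (Set.range k) := bddAbove_of_small
  have hk0 : max l ℵ₀ < k 0 := (h2 0).1
  have hbase : F.Std (⨆ n, k n) :=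
    Fam.std_base hF hK k h1 hk0
      (fun n => Fam.Std.of_cat hK (h2 n).1 (h2 n).2) h4
  have hθ : max l ℵ₀ < ⨆ n, k n := hk0.trans_le (le_ciSup hbdd 0)
  refine ⟨⨆ n, k n, fun κ hκ => ?_⟩
  have hall : ∀ κ, (⨆ n, k n) ≤ κ → F.Std κ := by
    intro κ
    induction κ using WellFoundedLT.induction with
    | ind κ ih =>
      intro hκ
      rcases hκ.eq_or_lt with rfl | hlt
      · exact hbase
      · exact Fam.std_step hF hK hθ hlt
          (fun κ' h6 h7 => ih κ' h7 h6) (fun X Y _ _ i h6 h7 => h5 X Y i h6 h7)
  exact (hall κ hκ).cat hK (hθ.trans_le hκ)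

/-- A class with a family of models indexed by linear orders in which every strong substructure is
conjugate to a standard one, which is categorical in arbitrarily large cardinals, is categorical in
all sufficiently large cardinals. -/
theorem eventually_of_homFamily {K : AEC L} (F : Gw.HomFamily K)
    (h : ∀ χ : Cardinal.{u}, ∃ κ, χ ≤ κ ∧ K.CategoricalIn κ) :
    ∃ χ : Cardinal.{u}, ∀ κ, χ ≤ κ → K.CategoricalIn κ :=
  eventually_of_fam (K := K)
    { obj := F.obj
      str := F.str
      map := F.map
      map_refl := F.map_refl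
      map_trans := F.map_trans
      emb_map := F.emb
      mono := F.mono
      fin := F.fin
      hom := F.hom
      conj := F.conj } h

end Vale.Agent.P307.H4
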