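import Vale.Agent.P307.Gw.Hom
import Vale.Agent.P307.H227.OrdAut
import Mathlib.Data.Fintype.Powerset

/-!
Families indexed by linear orders: point maps of strong embeddings, the groups of automorphisms
which are the identity on points.
-/

universe u

open FirstOrder Cardinal Function Language

namespace Vale.Agent.P307.H4

open H227

variable {L : Language.{u, u}}

/-- A functor from linear orders with order embeddings to members of `K` with strong embeddings
such that every strong embedding of `obj I` in `obj J` is given by an injection from `I` to `J`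
up to an automorphism of `obj J` (a copy of `Gw.HomFamily`). -/
structure Fam (K : AEC L) where
  obj : ∀ (I : Type u) [LinearOrder I], Type u
  str : ∀ (I : Type u) [LinearOrder I], L.Structure (obj I)
  map : ∀ {I J : Type u} [LinearOrder I] [LinearOrder J], (I ↪o J) → (obj I ↪[L] obj J)
  map_refl : ∀ {I : Type u} [LinearOrder I] (a : obj I), map (RelEmbedding.refl (· ≤ ·)) a = a
  map_trans : ∀ {I J M : Type u} [LinearOrder I] [LinearOrder J] [LinearOrder M] (i : I ↪o J)
    (j : J ↪o M) (a : obj I), map (i.trans j) a = map j (map i a)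
  emb_map : ∀ {I J : Type u} [LinearOrder I] [LinearOrder J] (i : I ↪o J), K.Emb (map i)
  mono : ∀ (I : Type u) [LinearOrder I] (A B : Set I),
    (map (OrderEmbedding.subtype (· ∈ A))).toHom.range ≤
      (map (OrderEmbedding.subtype (· ∈ B))).toHom.range → A ⊆ B
  fin : ∀ (I : Type u) [LinearOrder I] (a : obj I), ∃ s : Set I, s.Finite ∧
    a ∈ (map (OrderEmbedding.subtype (· ∈ s))).toHom.range
  hom : ∀ {I J : Type u} [LinearOrder I] [LinearOrder J] (θ : obj I ↪[L] obj J), K.Emb θ →
    ∃ (σ : obj J ≃[L] obj J) (t : I → J), Injective t ∧ ∀ A : Set I,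
      ((map (OrderEmbedding.subtype (· ∈ A))).toHom.range).map
        (σ.toEmbedding.comp θ).toHom =
          (map (OrderEmbedding.subtype (· ∈ t '' A))).toHom.range
  conj : ∀ (J : Type u) [LinearOrder J] (S : L.Substructure (obj J)), K.le S →
    ∃ (σ : obj J ≃[L] obj J) (A : Set J), S.map σ.toEmbedding.toHom =
      (map (OrderEmbedding.subtype (· ∈ A))).toHom.range

attribute [instance] Fam.str

namespace Fam

variable {K : AEC L} (F : Fam K) {I J M : Type u} [LinearOrder I] [LinearOrder J]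
  [LinearOrder M]

/-- The substructure of `obj I` which belongs to the subset `A`. -/
def sub (A : Set I) : L.Substructure (F.obj I) := (F.map (inc A)).toHom.range

theorem mem_range_map (t : I ↪o J) {b : F.obj J} :
    (∃ a, F.map t a = b) ↔ b ∈ F.sub (Set.range t) := by
  constructor
  · rintro ⟨a, rfl⟩
    refine ⟨F.map t.orderIso.toOrderEmbedding a, ?_⟩
    change F.map _ (F.map _ a) = F.map t a
    rw [← F.map_trans]
    rfl
  · rintro ⟨c, rfl⟩
    refine ⟨F.map t.orderIso.symm.toOrderEmbedding c, ?_⟩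
    change F.map _ _ = F.map _ c
    rw [← F.map_trans]
    refine congrArg (fun e => F.map e c) ?_
    ext x
    have h := t.orderIso.apply_symm_apply x
    exact congrArg Subtype.val h

theorem map_incl {A B : Set I} (h : A ⊆ B) (c : F.obj A) :
    F.map (inc B) (F.map (incl h) c) = F.map (inc A) c := by
  rw [← F.map_trans]
  rfl

theorem sub_mono {A B : Set I} (h : A ⊆ B) : F.sub A ≤ F.sub B := by
  rintro _ ⟨c, rfl⟩
  exact ⟨F.map (incl h) c, F.map_incl h c⟩

theorem sub_univ (a : F.obj I) : a ∈ F.sub (Set.univ : Set I) := by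
  have h := (F.mem_range_map (RelEmbedding.refl (· ≤ ·) : I ↪o I)).1 ⟨a, F.map_refl a⟩
  exact F.sub_mono (Set.subset_univ _) h

theorem range_trans_inc (t : I ↪o J) (A : Set I) : Set.range ((inc A).trans t) = t '' A := by
  ext y
  constructor
  · rintro ⟨x, rfl⟩
    exact ⟨x.1, x.2, rfl⟩
  · rintro ⟨x, hx, rfl⟩
    exact ⟨⟨x, hx⟩, rfl⟩

theorem map_mem_sub_image (t : I ↪o J) {A : Set I} {a : F.obj I} :
    F.map t a ∈ F.sub (t '' A) ↔ a ∈ F.sub A := by
  rw [← range_trans_inc, ← F.mem_range_map]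
  constructor
  · rintro ⟨c, hc⟩
    rw [F.map_trans] at hc
    exact ⟨c, (F.map t).injective hc⟩
  · rintro ⟨c, hc⟩
    refine ⟨c, ?_⟩
    rw [F.map_trans]
    exact congrArg (F.map t) hc

theorem card_sub (A : Set I) : #(F.sub A) = #(F.obj A) :=
  (mk_congr (F.map (inc A)).equivRange.toEquiv).symm

theorem le_sub (A : Set I) : K.le (F.sub A) := F.emb_map (inc A)

theorem sub_le_iff {A B : Set I} : F.sub A ≤ F.sub B ↔ A ⊆ B := ⟨F.mono I A B, F.sub_mono⟩

theorem sub_inj {A B : Set I} (h : F.sub A = F.sub B) : A = B :=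
  Set.Subset.antisymm (F.sub_le_iff.1 h.le) (F.sub_le_iff.1 h.ge)

theorem mem_obj (I : Type u) [LinearOrder I] : K.mem (F.obj I) :=
  (K.mem_of_le _ (F.le_sub (Set.univ : Set I))).2

/-- The embedding `θ` induces the map `t` on points. -/
structure Ind (θ : F.obj I ↪[L] F.obj J) (t : I → J) : Prop where
  inj : Injective t
  mem : ∀ (A : Set I) (a : F.obj I), θ a ∈ F.sub (t '' A) ↔ a ∈ F.sub A
  rng : ∀ b, b ∈ F.sub (Set.range t) → ∃ a, θ a = b

variable {F}

theorem ind_map (t : I ↪o J) : F.Ind (F.map t) t where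
  inj := t.injective
  mem _ _ := F.map_mem_sub_image t
  rng _ hb := (F.mem_range_map t).2 hb

theorem Ind.mem_range {θ : F.obj I ↪[L] F.obj J} {t : I → J} (h : F.Ind θ t) (a : F.obj I) :
    θ a ∈ F.sub (Set.range t) := by
  rw [← Set.image_univ]
  exact (h.mem _ a).2 (F.sub_univ a)

theorem Ind.emb {θ : F.obj I ↪[L] F.obj J} {t : I → J} (h : F.Ind θ t) : K.Emb θ := by
  have h1 : θ.toHom.range = F.sub (Set.range t) := by
    ext b
    constructor
    · rintro ⟨a, rfl⟩
      exact h.mem_range a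
    · exact h.rng b
  unfold AEC.Emb
  rw [h1]
  exact F.le_sub _

theorem Ind.comp {θ : F.obj I ↪[L] F.obj J} {t : I → J} (h : F.Ind θ t)
    {θ' : F.obj J ↪[L] F.obj M} {t' : J → M} (h' : F.Ind θ' t') :
    F.Ind (θ'.comp θ) (t' ∘ t) where
  inj := h'.inj.comp h.inj
  mem A a := by
    rw [Set.image_comp]
    exact (h'.mem _ _).trans (h.mem _ _)
  rng b hb := by
    rw [Set.range_comp] at hb
    obtain ⟨c, rfl⟩ := h'.rng b (F.sub_mono (Set.image_subset_range _ _) hb)
    obtain ⟨a, ha⟩ := h.rng c ((h'.mem _ c).1 hb)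
    exact ⟨a, congrArg θ' ha⟩

theorem Ind.congr {θ : F.obj I ↪[L] F.obj J} {t t' : I → J} (h : F.Ind θ t) (ht : ∀ x, t x = t' x) :
    F.Ind θ t' := by
  rwa [← funext ht]

/-- Two embeddings which agree on the substructure of a point induce the same image of it. -/
theorem Ind.unique {θ θ' : F.obj I ↪[L] F.obj J} {t t' : I → J} (h : F.Ind θ t)
    (h' : F.Ind θ' t') {x : I} (hx : ∀ a ∈ F.sub {x}, θ a = θ' a) : t x = t' x := by
  have h1 : F.sub {t x} ≤ F.sub {t' x} := by
    intro b hb
    have h2 : ({t x} : Set J) ⊆ Set.range t := by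
      rintro _ rfl
      exact ⟨x, rfl⟩
    obtain ⟨a, rfl⟩ := h.rng b (F.sub_mono h2 hb)
    rw [← Set.image_singleton, h.mem] at hb
    rw [hx a hb, ← Set.image_singleton, h'.mem]
    exact hb
  exact F.sub_le_iff.1 h1 rfl

/-- Every strong embedding induces a map on points, up to an automorphism of the target. -/
theorem exists_ind (θ : F.obj I ↪[L] F.obj J) (hθ : K.Emb θ) :
    ∃ (σ : F.obj J ≃[L] F.obj J) (t : I → J), F.Ind (σ.toEmbedding.comp θ) t := by
  obtain ⟨σ, t, ht, h⟩ := F.hom θ hθ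
  have h' : ∀ A : Set I, (F.sub A).map (σ.toEmbedding.comp θ).toHom = F.sub (t '' A) := h
  refine ⟨σ, t, ht, fun A a => ?_, fun b hb => ?_⟩
  · rw [← h' A]
    constructor
    · rintro ⟨a', ha', haa⟩
      have h1 : (σ.toEmbedding.comp θ) a' = (σ.toEmbedding.comp θ) a := haa
      rwa [← (σ.toEmbedding.comp θ).injective h1]
    · intro ha
      exact ⟨a, ha, rfl⟩
  · rw [← Set.image_univ, ← h'] at hb
    obtain ⟨a, -, ha⟩ := hb
    exact ⟨a, ha⟩

/-- Corestriction along an order embedding. -/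
theorem exists_cores {N : Type u} [L.Structure N] (θ : N ↪[L] F.obj J) (t : I ↪o J)
    (h : ∀ n, θ n ∈ F.sub (Set.range t)) : ∃ θ' : N ↪[L] F.obj I, ∀ n, F.map t (θ' n) = θ n := by
  have hle : θ.toHom.range ≤ (F.map t).toHom.range := by
    rintro _ ⟨n, rfl⟩
    exact (F.mem_range_map t).2 (h n)
  refine ⟨(F.map t).equivRange.symm.toEmbedding.comp
    ((Substructure.inclusion hle).comp θ.equivRange.toEmbedding), fun n => ?_⟩
  have h1 := (F.map t).equivRange.apply_symm_apply (Substructure.inclusion hle (θ.equivRange n))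
  exact congrArg Subtype.val h1

/-- If the composition of an embedding with an embedding which induces a map on points induces a
map on points then so does the embedding. -/
theorem Ind.of_comp {θ : F.obj I ↪[L] F.obj J} {θ' : F.obj J ↪[L] F.obj M} {t' : J → M}
    (h' : F.Ind θ' t') {t : I → J} (h : F.Ind (θ'.comp θ) (t' ∘ t)) : F.Ind θ t where
  inj := h.inj.of_comp
  mem A a := by
    have h1 := h.mem A a
    rw [Set.image_comp] at h1
    exact (h'.mem _ _).symm.trans h1
  rng b hb := by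
    have h1 := (h'.mem _ _).2 hb
    rw [← Set.range_comp] at h1
    obtain ⟨a, ha⟩ := h.rng _ h1
    exact ⟨a, θ'.injective ha⟩

theorem Ind.surj {θ : F.obj I ↪[L] F.obj J} {t : I → J} (h : F.Ind θ t) (ht : Surjective t) :
    Surjective θ := by
  intro b
  refine h.rng b ?_
  rw [ht.range_eq]
  exact F.sub_univ b

/-- A surjective embedding is an isomorphism. -/
theorem exists_equiv_of_surj {N P : Type u} [L.Structure N] [L.Structure P] (θ : N ↪[L] P)
    (h : Surjective θ) : ∃ e : N ≃[L] P, ∀ a, e a = θ a := by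
  obtain ⟨e, he⟩ := (SymmetricFamily.isPI_push (L := L) (Language.Embedding.refl L N) θ).exists_equiv
    (fun a => ⟨_, a, rfl, rfl⟩) (fun b => by
      obtain ⟨a, ha⟩ := h b
      exact ⟨a, a, rfl, ha⟩)
  refine ⟨e, fun a => ?_⟩
  obtain ⟨c, h1, h2⟩ := he a
  have h1' : c = a := h1
  have h2' : θ c = e a := h2
  rw [← h2', h1']

/-- The set of points of an element can be chosen finite. -/
theorem fin_sub {A : Set I} {a : F.obj I} (ha : a ∈ F.sub A) :
    ∃ s ⊆ A, s.Finite ∧ a ∈ F.sub s := by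
  obtain ⟨c, rfl⟩ := ha
  obtain ⟨s, hs, hc⟩ := F.fin A c
  refine ⟨inc A '' s, ?_, hs.image _, ?_⟩
  · rintro _ ⟨x, -, rfl⟩
    exact x.2
  · exact (F.map_mem_sub_image (inc A)).2 hc

omit [LinearOrder I] in
theorem exists_mem_of_finite {ι : Type u} [LinearOrder ι] [Nonempty ι] (S : ι → Set I)
    (hS : Monotone S) (hc : ∀ x, ∃ i, x ∈ S i) {s : Set I} (hs : s.Finite) : ∃ i, s ⊆ S i := by
  induction s, hs using Set.Finite.induction_on with
  | empty => exact ⟨Classical.arbitrary ι, Set.empty_subset _⟩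
  | @insert x s _ _ ih =>
    obtain ⟨i, hi⟩ := ih
    obtain ⟨j, hj⟩ := hc x
    refine ⟨max i j, Set.insert_subset ?_ ?_⟩
    · exact hS (le_max_right i j) hj
    · exact hi.trans (hS (le_max_left i j))

theorem cover {ι : Type u} [LinearOrder ι] [WellFoundedLT ι] [Nonempty ι]
    (S : ι → Set I) (hS : Monotone S) (hc : ∀ x, ∃ i, x ∈ S i) (a : F.obj I) :
    ∃ i, a ∈ F.sub (S i) := by
  obtain ⟨s, hs, ha⟩ := F.fin I a
  obtain ⟨i, hi⟩ := exists_mem_of_finite S hS hc hs
  exact ⟨i, F.sub_mono hi ha⟩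

/-- An embedding which induces a map on points locally induces it. -/
theorem Ind.of_local {θ : F.obj I ↪[L] F.obj J} {t : I → J}
    (h : ∀ s : Set I, s.Finite → ∃ A : Set I, s ⊆ A ∧
      F.Ind (θ.comp (F.map (inc A))) (fun x : A => t x.1)) : F.Ind θ t where
  inj := by
    intro x y hxy
    obtain ⟨A, hA, hi⟩ := h {x, y} (Set.toFinite _)
    have h1 := @hi.inj ⟨x, hA (Or.inl rfl)⟩ ⟨y, hA (Or.inr rfl)⟩ hxy
    exact congrArg Subtype.val h1
  mem A' a := by
    have hpre : ∀ {s A : Set I}, s ⊆ A → inc A '' (inc A ⁻¹' s) = s := by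
      intro s A hsA
      ext x
      constructor
      · rintro ⟨y, hy, rfl⟩
        exact hy
      · intro hx
        exact ⟨⟨x, hsA hx⟩, hx, rfl⟩
    have himg : ∀ {s A : Set I}, s ⊆ A → (fun x : A => t x.1) '' (inc A ⁻¹' s) = t '' s := by
      intro s A hsA
      ext y
      constructor
      · rintro ⟨x, hx, rfl⟩
        exact ⟨x.1, hx, rfl⟩
      · rintro ⟨x, hx, rfl⟩
        exact ⟨⟨x, hsA hx⟩, hx, rfl⟩
    constructor
    · intro ha
      obtain ⟨s₁, hs₁, ha₁⟩ := F.fin I a
      obtain ⟨u, hu, hufin, hau⟩ := fin_sub ha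
      obtain ⟨s₂, hs₂, hs₂fin, hu2⟩ : ∃ s₂ ⊆ A', s₂.Finite ∧ t '' s₂ = u := by
        have h1 := (Set.exists_subset_image_finite_and (f := t) (s := A')
          (p := fun w => w = u)).1 ⟨u, hu, hufin, rfl⟩
        exact h1
      obtain ⟨A, hA, hi⟩ := h (s₁ ∪ s₂) (hs₁.union hs₂fin)
      obtain ⟨c, rfl⟩ := F.sub_mono (Set.subset_union_left.trans hA) ha₁
      have h2 : (θ.comp (F.map (inc A))) c ∈ F.sub ((fun x : A => t x.1) '' (inc A ⁻¹' s₂)) := by
        rw [himg (Set.subset_union_right.trans hA), hu2]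
        exact hau
      have h3 := (F.map_mem_sub_image (inc A)).2 ((hi.mem _ c).1 h2)
      rw [hpre (Set.subset_union_right.trans hA)] at h3
      exact F.sub_mono hs₂ h3
    · intro ha
      obtain ⟨s, hs, hsfin, has⟩ := fin_sub ha
      obtain ⟨A, hA, hi⟩ := h s hsfin
      obtain ⟨c, rfl⟩ := F.sub_mono hA has
      have h1 : c ∈ F.sub (inc A ⁻¹' s) := by
        rw [← F.map_mem_sub_image (inc A), hpre hA]
        exact has
      have h2 := (hi.mem _ c).2 h1
      rw [himg hA] at h2
      exact F.sub_mono (Set.image_mono hs) h2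
  rng b hb := by
    obtain ⟨u, hu, hufin, hbu⟩ := fin_sub hb
    rw [← Set.image_univ] at hu
    obtain ⟨s, -, hsfin, hus⟩ : ∃ s ⊆ (Set.univ : Set I), s.Finite ∧ t '' s = u := by
      have h1 := (Set.exists_subset_image_finite_and (f := t) (s := (Set.univ : Set I))
        (p := fun w => w = u)).1 ⟨u, hu, hufin, rfl⟩
      exact h1
    obtain ⟨A, hA, hi⟩ := h s hsfin
    obtain ⟨c, hc⟩ := hi.rng b (F.sub_mono (by
      rw [← hus]
      rintro _ ⟨x, hx, rfl⟩
      exact ⟨⟨x, hA hx⟩, rfl⟩) hbu)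
    exact ⟨_, hc⟩

theorem exists_cores_ind {U V W : Type u} [LinearOrder U] [LinearOrder V] [LinearOrder W]
    {θ : F.obj V ↪[L] F.obj W} {t : V → W} (h : F.Ind θ t) (j : U ↪o W) (t' : V → U)
    (ht : ∀ v, j (t' v) = t v) :
    ∃ θ' : F.obj V ↪[L] F.obj U, (∀ n, F.map j (θ' n) = θ n) ∧ F.Ind θ' t' := by
  obtain ⟨θ', hθ'⟩ := F.exists_cores θ j fun n => by
    refine F.sub_mono ?_ (h.mem_range n)
    rintro _ ⟨v, rfl⟩
    exact ⟨t' v, ht v⟩
  refine ⟨θ', hθ', (ind_map j).of_comp ?_⟩
  have h1 : (F.map j).comp θ' = θ := by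
    apply Language.Embedding.ext
    exact hθ'
  rw [h1]
  exact h.congr fun v => (ht v).symm

/-- `l` bounds the Löwenheim-Skolem number and the cardinalities of the members which belong to
finite orders. -/
structure Ok (F : Fam K) (l : Cardinal.{u}) : Prop where
  ls : K.IsLS l
  bd : ∀ n : ℕ, #(F.obj (ULift.{u} (Fin n))) ≤ l

theorem exists_ok (F : Fam K) : ∃ l, F.Ok l := by
  refine ⟨max K.LS (⨆ n : ℕ, #(F.obj (ULift.{u} (Fin n)))), ?_, fun n => ?_⟩
  · exact (AEC.isLS_LS K).mono (le_max_left _ _)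
  · exact (le_ciSup (f := fun n : ℕ => #(F.obj (ULift.{u} (Fin n)))) bddAbove_of_small n).trans
      (le_max_right _ _)

/-- members which belong to isomorphic orders have the same cardinality -/
theorem card_iso (e : I ≃o J) : #(F.obj I) = #(F.obj J) := by
  refine mk_congr (Equiv.ofBijective (F.map e.toOrderEmbedding) ⟨(F.map _).injective, fun b => ?_⟩)
  refine ⟨F.map e.symm.toOrderEmbedding b, ?_⟩
  rw [← F.map_trans]
  have h : e.symm.toOrderEmbedding.trans e.toOrderEmbedding = RelEmbedding.refl (· ≤ ·) := by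
    ext x
    exact e.apply_symm_apply x
  rw [h, F.map_refl]

theorem card_sub_finite {l : Cardinal.{u}} (hK : F.Ok l) {s : Set I} (hs : s.Finite) :
    #(F.sub s) ≤ l := by
  rw [card_sub]
  have : Finite s := hs
  have : Fintype s := Fintype.ofFinite s
  let e : ULift.{u} (Fin (Fintype.card s)) ≃o s :=
    (ULift.orderIso).trans (Fintype.orderIsoFinOfCardEq s rfl)
  rw [← card_iso e]
  exact hK.bd _

theorem card_obj_le {l : Cardinal.{u}} (hK : F.Ok l) (I : Type u)
    [LinearOrder I] : #(F.obj I) ≤ #I + l := by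
  classical
  have hl0 : ℵ₀ ≤ l := hK.ls.1
  have hm : ℵ₀ ≤ #I + l := hl0.trans (self_le_add_left _ _)
  choose s hs1 hs2 using F.fin I
  have h1 : #(F.obj I) ≤ #(Σ w : Finset I, F.sub (w : Set I)) :=
    mk_le_of_injective
      (f := fun a : F.obj I => (⟨(hs1 a).toFinset, a, by
        rw [Set.Finite.coe_toFinset]
        exact hs2 a⟩ : Σ w : Finset I, F.sub (w : Set I))) (by
      intro a b hab
      have h2 : (((⟨(hs1 a).toFinset, a, by
        rw [Set.Finite.coe_toFinset]
        exact hs2 a⟩ : Σ w : Finset I, F.sub (w : Set I))).2 : F.obj I) =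
        (((⟨(hs1 b).toFinset, b, by
        rw [Set.Finite.coe_toFinset]
        exact hs2 b⟩ : Σ w : Finset I, F.sub (w : Set I))).2 : F.obj I) :=
        congrArg (fun p : (Σ w : Finset I, F.sub (w : Set I)) => (p.2 : F.obj I)) hab
      exact h2)
  refine h1.trans ?_
  rw [mk_sigma]
  refine (sum_le_sum _ (fun _ => l) fun w => card_sub_finite hK w.finite_toSet).trans ?_
  rw [sum_const']
  have h3 : #(Finset I) ≤ #I + l := by
    rcases lt_or_ge #I ℵ₀ with h | h
    · have : Finite I := lt_aleph0_iff_finite.1 h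
      have : Fintype I := Fintype.ofFinite I
      have : Finite (Finset I) := Finite.of_fintype _
      exact ((lt_aleph0_of_finite (Finset I)).le).trans hm
    · have : Infinite I := infinite_iff.2 h
      rw [mk_finset_of_infinite]
      exact self_le_add_right _ _
  calc #(Finset I) * l ≤ (#I + l) * (#I + l) := mul_le_mul' h3 (self_le_add_left _ _)
    _ = #I + l := mul_eq_self hm

/-- The cardinality of the members of the family. -/
theorem card_obj {l : Cardinal.{u}} (hK : F.Ok l) (I : Type u) [LinearOrder I]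
    (hI : max l ℵ₀ < #I) : #(F.obj I) = #I := by
  have hl : l < #I := (le_max_left _ _).trans_lt hI
  have h0 : ℵ₀ < #I := (le_max_right _ _).trans_lt hI
  have hex : ∀ z : I, ∃ a : F.obj I, a ∉ F.sub {z}ᶜ := by
    intro z
    by_contra h
    push Not at h
    have h1 : F.sub (Set.univ : Set I) ≤ F.sub {z}ᶜ := fun a _ => h a
    exact F.sub_le_iff.1 h1 (Set.mem_univ z) rfl
  choose a ha using hex
  refine le_antisymm ?_ ?_
  · exact (card_obj_le hK I).trans (add_le_of_le h0.le le_rfl hl.le)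
  · choose s hs1 hs2 using F.fin I
    have hmem : ∀ z, z ∈ s (a z) := by
      intro z
      by_contra hz
      refine ha z (F.sub_mono ?_ (hs2 (a z)))
      rintro w hw rfl
      exact hz hw
    have h1 : #I ≤ #(Σ b : F.obj I, s b) :=
      mk_le_of_injective (f := fun z => (⟨a z, ⟨z, hmem z⟩⟩ : Σ b : F.obj I, s b)) (by
        intro z z' h
        rw [Sigma.mk.injEq] at h
        have key : ∀ (b b' : F.obj I) (hb : z ∈ s b) (hb' : z' ∈ s b'), b = b' →
            HEq (⟨z, hb⟩ : s b) (⟨z', hb'⟩ : s b') → z = z' := by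
          rintro b _ hb hb' rfl h
          exact congrArg Subtype.val (eq_of_heq h)
        exact key _ _ _ _ h.1 h.2)
    have h2 : #(Σ b : F.obj I, s b) ≤ #(F.obj I) * ℵ₀ := by
      rw [mk_sigma]
      refine (sum_le_sum _ (fun _ => ℵ₀) fun b => ?_).trans ?_
      · exact ((hs1 b).lt_aleph0).le
      · rw [sum_const']
    by_contra h3
    rw [not_le] at h3
    have h4 := (h1.trans h2).trans_lt (mul_lt_of_lt h0.le h3 h0)
    exact lt_irrefl _ h4

end Fam

end Vale.Agent.P307.H4
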