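import Vale.Agent.P307.H4.Step

/-!
The critical cardinal, for families indexed by linear orders.
-/

universe u v w

open FirstOrder Cardinal Function Language

namespace Vale.Agent.P307.H4

open H227

variable {L : Language.{u, u}}

namespace Fam

variable {K : AEC L} {F : Fam K}

/-- Choice of an isomorphism for which a strong extension induces an inclusion of sets of points. -/
theorem exists_repr (hF : F.Moves) {N N' Z : Type u} [L.Structure N] [L.Structure N']
    [LinearOrder Z] {A B : Set Z} (hAB : A ⊆ B) (j : N ↪[L] N') (hj : K.Emb j)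
    (φ : N ≃[L] F.obj A) (ψ₀ : N' ≃[L] F.obj B) (hc : #A < #B) :
    ∃ φ' : N' ≃[L] F.obj B,
      F.Ind (φ'.toEmbedding.comp (j.comp φ.symm.toEmbedding)) (incl hAB) := by
  have hφ : K.Emb φ.symm.toEmbedding := AEC.Emb.of_equiv _ (F.mem_obj A)
  have hψ₀ : K.Emb ψ₀.toEmbedding := AEC.Emb.of_equiv _ hj.mem_right
  obtain ⟨σ, t, ht₀⟩ := exists_ind (ψ₀.toEmbedding.comp (j.comp φ.symm.toEmbedding))
    (hψ₀.comp (hj.comp hφ))
  let ψ : N' ≃[L] F.obj B := σ.comp ψ₀
  have ht : F.Ind (ψ.toEmbedding.comp (j.comp φ.symm.toEmbedding)) t := ht₀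
  let et := Equiv.ofInjective t ht.inj
  let f : Set.range t ↪ B := et.symm.toEmbedding.trans (incl hAB).toEmbedding
  obtain ⟨β, hβ⟩ := extend_function_of_lt f (by rwa [mk_range_eq t ht.inj]) ⟨Equiv.refl B⟩
  obtain ⟨e, he⟩ := hF.exists_iso β
  refine ⟨e.comp ψ, ?_⟩
  refine (ht.comp he).congr fun x => ?_
  have h1 := hβ (et x)
  change β (t x) = incl hAB (et.symm (et x)) at h1
  rw [et.symm_apply_apply] at h1
  exact h1

/-- The critical cardinal. -/
theorem std_base (hF : F.Moves) {l : Cardinal.{u}} (hK : F.Ok l)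
    (k : ℕ → Cardinal.{u}) (hk : StrictMono k) (hk0 : max l ℵ₀ < k 0) (hstd : ∀ n, F.Std (k n))
    (hst : ∀ (n : ℕ) (X Y Z : Type u) [LinearOrder X] [LinearOrder Y] [LinearOrder Z]
        (i : X ↪o Y) (j : Y ↪o Z), #X = k n → #Y = k (n + 1) →
        #Z = k (n + 2) → ∀ g : F.Gp Y, ∃ h : F.Gp Z, rs (i.trans j) h = rs i g) :
    F.Std (⨆ n, k n) := by
  intro N _ hN hNθ X _ hX
  have hkχ : ∀ n, max l ℵ₀ < k n := fun n => hk0.trans_le (hk.monotone (Nat.zero_le n))
  have hk_0 : ∀ n, ℵ₀ ≤ k n := fun n => (le_max_right _ _).trans (hkχ n).le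
  have hkl : ∀ n, l ≤ k n := fun n => (le_max_left _ _).trans (hkχ n).le
  have hbdd : BddAbove (Set.range k) := bddAbove_of_small
  have hkle : ∀ n, k n ≤ #N := fun n => by
    rw [hNθ]
    exact le_ciSup hbdd n
  obtain ⟨D, hD1, hD2⟩ := SymmetricFamily.exists_layers k hNθ.le
  choose B hB using fun n => le_mk_iff_exists_set.1 (hkle n)
  choose hull hh1 hh2 hh3 using hK.ls.2.2 N hN
  obtain ⟨S, hS0, hS1⟩ : ∃ S : ℕ → L.Substructure N, S 0 = hull (D 0 ∪ B 0) ∧
      ∀ n, S (n + 1) = hull ((S n : Set N) ∪ (D (n + 1) ∪ B (n + 1))) :=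
    ⟨fun n => Nat.rec (motive := fun _ => L.Substructure N) (hull (D 0 ∪ B 0))
      (fun n T => hull ((T : Set N) ∪ (D (n + 1) ∪ B (n + 1)))) n, rfl, fun n => rfl⟩
  have hSle : ∀ n, K.le (S n) := fun n => by
    cases n with
    | zero => rw [hS0]; exact hh1 _
    | succ n => rw [hS1]; exact hh1 _
  have hSDB : ∀ n, D n ∪ B n ⊆ S n := fun n => by
    cases n with
    | zero => rw [hS0]; exact hh2 _
    | succ n =>
      rw [hS1]
      exact Set.subset_union_right.trans (hh2 _)
  have hSs : ∀ n, S n ≤ S (n + 1) := fun n => by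
    intro x hx
    rw [hS1]
    exact hh2 _ (Or.inl hx)
  have hSm : Monotone S := monotone_nat_of_le_succ hSs
  have hDB : ∀ n, #(D n ∪ B n : Set N) ≤ k n := fun n =>
    (mk_union_le _ _).trans (add_le_of_le (hk_0 n) (hD1 n) (hB n).le)
  have hcard : ∀ n, #(S n) = k n := by
    have hge : ∀ n, k n ≤ #(S n) := fun n => by
      rw [← hB n]
      exact mk_le_mk_of_subset (Set.subset_union_right.trans (hSDB n))
    intro n
    refine le_antisymm ?_ (hge n)
    induction n with
    | zero =>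
      rw [hS0]
      exact (hh3 _).trans (add_le_of_le (hk_0 0) (hDB 0) (hkl 0))
    | succ n ih =>
      rw [hS1]
      refine (hh3 _).trans (add_le_of_le (hk_0 _) ?_ (hkl _))
      exact (mk_union_le _ _).trans (add_le_of_le (hk_0 _)
        (ih.trans (hk.monotone (Nat.le_succ n))) (hDB _))
  have hmem : ∀ n, K.mem (S n) := fun n => (K.mem_of_le _ (hSle n)).1
  let Z : Type u := (⨆ n, k n).ord.ToType
  have hZ : #Z = ⨆ n, k n := mk_ord_toType _
  choose P hP using fun n => le_mk_iff_exists_set.1 (show k n ≤ #Z by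
    rw [hZ]
    exact le_ciSup hbdd n)
  let A : ℕ → Set Z := fun n => {z | ∃ m ≤ n, z ∈ P m}
  have hAm : Monotone A := by
    rintro m n hmn z ⟨r, hr, hz⟩
    exact ⟨r, hr.trans hmn, hz⟩
  have hAc : ∀ n, #(A n) = k n := by
    intro n
    refine le_antisymm ?_ ?_
    · induction n with
      | zero =>
        rw [← hP 0]
        refine mk_le_mk_of_subset ?_
        rintro z ⟨m, hm, hz⟩
        rwa [Nat.le_zero.1 hm] at hz
      | succ n ih =>
        have h1 : A (n + 1) ⊆ A n ∪ P (n + 1) := by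
          rintro z ⟨m, hm, hz⟩
          rcases Nat.le_succ_iff.1 hm with h | h
          · exact Or.inl ⟨m, h, hz⟩
          · rw [h] at hz
            exact Or.inr hz
        refine (mk_le_mk_of_subset h1).trans ((mk_union_le _ _).trans ?_)
        exact add_le_of_le (hk_0 _) (ih.trans (hk.monotone (Nat.le_succ n))) (hP _).le
    · rw [← hP n]
      exact mk_le_mk_of_subset fun z hz => ⟨n, le_rfl, hz⟩
  have hinc : ∀ n, K.Emb (Substructure.inclusion (hSs n)) := fun n =>
    (AEC.sle_of_le_le (hSs n) (hSle n) (hSle (n + 1))).2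
  have hψ : ∀ n, Nonempty (S n ≃[L] F.obj (A n)) := fun n =>
    hstd n (S n) (hmem n) (hcard n) (A n) (hAc n)
  have hrep : ∀ n (φ : S n ≃[L] F.obj (A n)), ∃ φ' : S (n + 1) ≃[L] F.obj (A (n + 1)),
      F.Ind (φ'.toEmbedding.comp ((Substructure.inclusion (hSs n)).comp φ.symm.toEmbedding))
        (incl (hAm (Nat.le_succ n))) := fun n φ =>
    exists_repr hF (hAm (Nat.le_succ n)) _ (hinc n) φ (hψ (n + 1)).some
      (by rw [hAc, hAc]; exact hk (Nat.lt_succ_self n))
  choose e he using hrep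
  let φ : ∀ n, S n ≃[L] F.obj (A n) := fun n =>
    Nat.rec (motive := fun n => S n ≃[L] F.obj (A n)) (hψ 0).some e n
  have hφ : ∀ n, F.Ind ((φ (n + 1)).toEmbedding.comp
      ((Substructure.inclusion (hSs n)).comp (φ n).symm.toEmbedding))
      (incl (hAm (Nat.le_succ n))) := fun n => he n (φ n)
  let i : ∀ n, A n ↪o A (n + 1) := fun n => incl (hAm (Nat.le_succ n))
  choose g hg using fun n => factor (hφ n) (ind_map (i n))
  have hg' : ∀ n (x : S n), φ (n + 1) (Substructure.inclusion (hSs n) x) =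
      F.map (i n) ((g n).1 (φ n x)) := by
    intro n x
    have h1 := hg n (φ n x)
    change φ (n + 1) (Substructure.inclusion (hSs n) ((φ n).symm (φ n x))) = _ at h1
    rwa [(φ n).symm_apply_apply] at h1
  have hmul : ∀ n (a b : F.Gp (A (n + 1))), rs (i n) (a * b) = rs (i n) a * rs (i n) b := by
    intro n a b
    apply rs_eq
    intro c
    rw [Subgroup.coe_mul, Subgroup.coe_mul, Equiv.Perm.mul_apply, Equiv.Perm.mul_apply,
      rs_spec, rs_spec]
  have htrans : ∀ n (a : F.Gp (A (n + 2))), rs ((i n).trans (i (n + 1))) a =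
      rs (i n) (rs (i (n + 1)) a) := by
    intro n a
    apply rs_eq
    intro c
    rw [F.map_trans, F.map_trans, rs_spec, rs_spec]
  obtain ⟨γ, hγ⟩ := mittag (G := fun n => F.Gp (A n)) (E := fun n => F.Gp (A n))
    (fun n a b => a * b) (fun n e e' => ⟨e' * e⁻¹, inv_mul_cancel_right e' e⟩) (fun n => rs (i n))
    (fun n a => rs (i n) a * g n)
    (fun n a b => by rw [hmul, mul_assoc]) (fun n => ⟨1⟩) (fun n a => by
      obtain ⟨h, hh⟩ := hst n _ _ _ (i n) (i (n + 1)) (hAc n) (hAc (n + 1)) (hAc (n + 2)) a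
      exact ⟨h, by rw [← hh, htrans]⟩)
  choose s hs hs' using fun n => (γ n).2.ind
  let f : ∀ n, S n ↪[L] F.obj Z := fun n =>
    (F.map (inc (A n))).comp ((s n).toEmbedding.comp (φ n).toEmbedding)
  have hf : ∀ n, K.Emb (f n) := fun n =>
    (F.emb_map _).comp ((hs' n).emb.comp (AEC.Emb.of_equiv _ (hmem n)))
  have hfv : ∀ n x, f n x = F.map (inc (A n)) ((γ n).1 (φ n x)) := fun n x => by
    rw [← hs]
    rfl
  have hfs : ∀ n (x : S n), f (n + 1) (Substructure.inclusion (hSs n) x) = f n x := by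
    intro n x
    refine (hfv (n + 1) _).trans ?_
    rw [hfv n x, hg' n x, ← rs_spec (i n) (γ (n + 1)), F.map_incl]
    refine congrArg (F.map (inc (A n))) ?_
    rw [← hγ n]
    rfl
  have hfc : ∀ m n (hmn : m ≤ n) (x : S m), f n (Substructure.inclusion (hSm hmn) x) = f m x := by
    intro m n hmn
    induction n, hmn using Nat.le_induction with
    | base =>
      intro x
      rfl
    | succ n hmn ih =>
      intro x
      rw [← ih x, ← hfs n]
      rfl
  obtain ⟨G, hG1, -⟩ := SymmetricFamily.glue_emb (K := K) (ι := ULift.{u} ℕ) (fun n => S n.down)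
    (fun m n h => hSm h) (fun n => f n.down) (fun n => hf n.down)
    (fun m n h x => hfc m.down n.down h x)
  have htop : (⨆ n : ULift.{u} ℕ, S n.down) = ⊤ := by
    rw [eq_top_iff]
    intro x _
    obtain ⟨n, hn⟩ := hD2 x
    exact le_iSup (fun n : ULift.{u} ℕ => S n.down) ⟨n⟩ (hSDB n (Or.inl hn))
  have e1 : N ≃[L] (⊤ : L.Substructure N) := Substructure.topEquiv.symm
  rw [← htop] at e1
  refine std_of_emb hF hK (G.comp e1.toEmbedding) (hG1.comp (AEC.Emb.of_equiv e1 hN)) ?_ ?_
  · exact (hkχ 0).trans_le (hkle 0)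
  · rw [hX, hNθ]

end Fam

end Vale.Agent.P307.H4
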