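import Vale.Agent.P307.H4.EStdL

/-! The family of a functor of large members with free finite sets of strong substructures. -/

universe u

open FirstOrder Cardinal Set Function Language

namespace Vale.Agent.P307.H4.E

open Ow (le_map le_comap map_comap map_le_range PreFamily)
open Pw (Fam strong_map_injective ind_of_sp)
open H227 (inc incl lft rgt)
open H479.E

variable {L : Language.{u, u}} {K : AEC L}

namespace Atoms

variable {P : PreFamily K} (a : Atoms P)

include a in
/-- The large strong substructures of larger members have bases. -/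
theorem exists_goodL {l' : Cardinal.{u}}
    (h : ∀ χ : Cardinal.{u}, ∃ κ, χ ≤ κ ∧ K.CategoricalIn κ ∧
      ∃ (M : Type u) (_ : L.Structure M), K.mem M ∧ #M = κ ∧ IsFreeL K l' M)
    (I : Type u) [LinearOrder I] :
    ∃ (Z : Type u) (_ : LinearOrder Z) (_ : I ↪o Z), IsFreeL K l' (P.obj Z) := by
  obtain ⟨l, hl⟩ := a.bd
  obtain ⟨κ, hκ, hcat, M, _, hM, hMκ, hf⟩ := h (max (max l ℵ₀) #I)
  have h0 : ℵ₀ ≤ κ := ((le_max_right _ _).trans (le_max_left _ _)).trans hκ
  have hlκ : l ≤ κ := ((le_max_left _ _).trans (le_max_left _ _)).trans hκ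
  have hIκ : #I ≤ κ := (le_max_right _ _).trans hκ
  let Z : Type u := I ⊕ₗ κ.ord.ToType
  have hZ : #Z = κ := by
    change #(I ⊕ κ.ord.ToType) = κ
    rw [mk_sum, lift_id, lift_id, mk_ord_toType]
    exact add_eq_right h0 hIκ
  have hPZ : #(P.obj Z) = κ := by
    apply le_antisymm
    · exact (hl Z).trans (by rw [hZ]; exact add_le_of_le h0 le_rfl hlκ)
    · exact hZ.symm.le.trans (mk_le_of_injective (a.inj Z))
  obtain ⟨e⟩ := hcat.2 M (P.obj Z) hM (P.mem_obj Z) hMκ hPZ
  exact ⟨Z, inferInstance, lft, isFreeL_of_equiv e hM (P.mem_obj Z) hf⟩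

/-- Finite sets are free. -/
theorem free_finiteL {l' : Cardinal.{u}}
    (hbig : ∀ (I : Type u) [LinearOrder I], Finite I → l' ≤ #(P.obj I))
    (h : ∀ χ : Cardinal.{u}, ∃ κ, χ ≤ κ ∧ K.CategoricalIn κ ∧
      ∃ (M : Type u) (_ : L.Structure M), K.mem M ∧ #M = κ ∧ IsFreeL K l' M)
    (I : Type u) [LinearOrder I] (s : Set I) (hs : s.Finite) :
    FreeIn (Str K (P.obj I)) ⊤ (a.T I '' s) := by
  obtain ⟨Z, _, j, hZ⟩ := a.exists_goodL h I
  let k : s ↪o Z := (inc s).trans j
  have h1 := freeIn_map (P.map k) (P.emb k) (a.free s hs.to_subtype)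
  have h2 : (fun T : L.Substructure (P.obj s) => T.map (P.map k).toHom) '' range (a.T s) =
      (fun T : L.Substructure (P.obj I) => T.map (P.map j).toHom) '' (a.T I '' s) := by
    ext V
    constructor
    · rintro ⟨_, ⟨i, rfl⟩, rfl⟩
      refine ⟨_, ⟨i.1, i.2, rfl⟩, ?_⟩
      change (a.T I i.1).map (P.map j).toHom = (a.T s i).map (P.map k).toHom
      rw [a.nat, a.nat]
      rfl
    · rintro ⟨_, ⟨i, hi, rfl⟩, rfl⟩
      refine ⟨_, ⟨⟨i, hi⟩, rfl⟩, ?_⟩
      change (a.T s ⟨i, hi⟩).map (P.map k).toHom = (a.T I i).map (P.map j).toHom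
      rw [a.nat, a.nat]
      rfl
  rw [h2] at h1
  have hR : K.le ((⊤ : L.Substructure (P.obj s)).map (P.map k).toHom) := by
    rw [top_map_le]
    exact P.emb k
  have hRl : l' ≤ #((⊤ : L.Substructure (P.obj s)).map (P.map k).toHom) := by
    rw [card_map]
    exact (hbig s hs.to_subtype).trans
      (mk_le_of_injective (f := fun x => (⟨x, trivial⟩ : (⊤ : L.Substructure (P.obj s))))
        fun x y hxy => congrArg Subtype.val hxy)
  obtain ⟨B, hB1, hB2⟩ := hZ.2.1 _ ⊤ hR (K.le_refl (P.mem_obj Z)) hRl le_top _ h1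
  have h3 := freeIn_subset hB2.1 hB1
  have hR' : K.le ((⊤ : L.Substructure (P.obj I)).map (P.map j).toHom) := by
    rw [top_map_le]
    exact P.emb j
  refine freeIn_of_map (P.map j) (P.emb j) (freeIn_le hR' le_top ?_ h3)
  rintro _ ⟨T, -, rfl⟩
  exact map_le_map _ le_top

/-- Least strong substructures. -/
theorem exists_spL
    (hff : ∀ (I : Type u) [LinearOrder I] (s : Set I), s.Finite →
      FreeIn (Str K (P.obj I)) ⊤ (a.T I '' s))
    (I : Type u) [LinearOrder I] (A : Set I) :
    ∃ U, Lst (Str K (P.obj I)) ⊤ (a.T I '' A) U ∧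
      ∀ x ∈ U, ∃ s ⊆ A, s.Finite ∧ ∀ V, Lst (Str K (P.obj I)) ⊤ (a.T I '' s) V → x ∈ V := by
  classical
  have h1 : ∀ s : Finset A, ∃ U, Lst (Str K (P.obj I)) ⊤
      (a.T I '' (Subtype.val '' (s : Set A))) U := by
    intro s
    obtain ⟨U, hU, -⟩ := (hff I (Subtype.val '' (s : Set A))
      (s.finite_toSet.image _)).2.2 _ Subset.rfl
    exact ⟨U, hU⟩
  choose G hG using h1
  have hGm : Monotone G := by
    intro s t hst
    refine (hG s).2.2.2 _ (hG t).1 le_top ?_
    rintro _ ⟨_, ⟨i, hi, rfl⟩, rfl⟩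
    exact (hG t).2.2.1 _ ⟨_, ⟨i, hst hi, rfl⟩, rfl⟩
  have hle : K.le (⨆ s, G s) := AEC.le_iSup_finset G hGm fun s => (hG s).1
  refine ⟨⨆ s, G s, ⟨hle, le_top, ?_, ?_⟩, ?_⟩
  · rintro _ ⟨i, hi, rfl⟩
    refine le_trans ?_ (le_iSup G {⟨i, hi⟩})
    exact (hG _).2.2.1 _ ⟨_, ⟨⟨i, hi⟩, by simp, rfl⟩, rfl⟩
  · intro V hV _ hVA
    refine iSup_le fun s => (hG s).2.2.2 _ hV le_top ?_
    rintro _ ⟨_, ⟨i, hi, rfl⟩, rfl⟩
    exact hVA _ ⟨i.1, i.2, rfl⟩
  · intro x hx
    rw [Substructure.mem_iSup_of_directed (directed_of_isDirected_le hGm)] at hx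
    obtain ⟨s, hs⟩ := hx
    refine ⟨Subtype.val '' (s : Set A), ?_, s.finite_toSet.image _, fun V hV => ?_⟩
    · rintro _ ⟨i, -, rfl⟩
      exact i.2
    · rwa [lst_unique hV (hG s)]

end Atoms

/-- **The family.** -/
theorem exists_famL' (P : PreFamily K) (a : Atoms P)
    (hff : ∀ (I : Type u) [LinearOrder I] (s : Set I), s.Finite →
      FreeIn (Str K (P.obj I)) ⊤ (a.T I '' s)) :
    ∃ F : Fam K, ∀ (I : Type u) [LinearOrder I],
      BasisOf (Str K (F.obj I)) ⊤ (range fun i : I => F.sub {i}) := by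
  classical
  choose sp hsp hfin using fun (I : Type u) (lo : LinearOrder I) (A : Set I) => a.exists_spL hff I A
  have hmono : ∀ (I : Type u) (lo : LinearOrder I) {A B : Set I}, A ⊆ B →
      sp I lo A ≤ sp I lo B := by
    intro I lo A B hAB
    refine (hsp I lo A).2.2.2 _ (hsp I lo B).1 le_top ?_
    rintro _ ⟨i, hi, rfl⟩
    exact (hsp I lo B).2.2.1 _ ⟨i, hAB hi, rfl⟩
  have hfin' : ∀ (I : Type u) (lo : LinearOrder I) (A : Set I), ∀ x ∈ sp I lo A,
      ∃ s ⊆ A, s.Finite ∧ x ∈ sp I lo s := by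
    intro I lo A x hx
    obtain ⟨s, hs1, hs2, hs3⟩ := hfin I lo A x hx
    exact ⟨s, hs1, hs2, hs3 _ (hsp I lo s)⟩
  have himage : ∀ {I J : Type u} (lo : LinearOrder I) (lo' : LinearOrder J) (f : I ↪o J)
      (A : Set I), (fun T : L.Substructure (P.obj I) => T.map (P.map f).toHom) '' (a.T I '' A) =
        a.T J '' (f '' A) := by
    intro I J lo lo' f A
    ext V
    constructor
    · rintro ⟨_, ⟨i, hi, rfl⟩, rfl⟩
      exact ⟨f i, ⟨i, hi, rfl⟩, (a.nat f i).symm⟩
    · rintro ⟨_, ⟨i, hi, rfl⟩, rfl⟩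
      exact ⟨_, ⟨i, hi, rfl⟩, a.nat f i⟩
  -- naturality
  have hnatf : ∀ {I J : Type u} (lo : LinearOrder I) (lo' : LinearOrder J) (f : I ↪o J)
      (A : Set I), A.Finite → (sp I lo A).map (P.map f).toHom = sp J lo' (f '' A) := by
    intro I J lo lo' f A hA
    have h1 := lst_map (P.map f) (P.emb f) (hsp I lo A)
    rw [himage lo lo' f A] at h1
    have h2 := lst_top le_top (hff J (f '' A) (hA.image f)) Subset.rfl h1
    exact lst_unique h2 (hsp J lo' _)
  have hnat : ∀ {I J : Type u} (lo : LinearOrder I) (lo' : LinearOrder J) (f : I ↪o J)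
      (A : Set I), (sp I lo A).map (P.map f).toHom = sp J lo' (f '' A) := by
    intro I J lo lo' f A
    apply le_antisymm
    · rintro _ ⟨x, hx, rfl⟩
      obtain ⟨s, hs1, hs2, hs3⟩ := hfin' I lo A x hx
      have h1 : (P.map f) x ∈ (sp I lo s).map (P.map f).toHom := ⟨x, hs3, rfl⟩
      rw [hnatf lo lo' f s hs2] at h1
      exact hmono J lo' (image_mono hs1) h1
    · refine (hsp J lo' _).2.2.2 _ (le_map _ (P.emb f) (hsp I lo A).1) le_top ?_
      rintro _ ⟨_, ⟨i, hi, rfl⟩, rfl⟩
      rw [← a.nat f i]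
      exact map_le_map _ ((hsp I lo A).2.2.1 _ ⟨i, hi, rfl⟩)
  -- independence
  have hind : ∀ (I : Type u) (lo : LinearOrder I) (m : I), ¬ a.T I m ≤ sp I lo {m}ᶜ := by
    intro I lo m hm
    let A : Set I := {m}ᶜ
    let Q : Type u := (Order.succ #(P.obj A)).ord.ToType
    let U : Set I := Iio m
    let V : Set I := Ioi m
    let J : Type u := (U ⊕ₗ Q) ⊕ₗ V
    let a1 : U → J := fun i => H227.lft (H227.lft i)
    let a2 : Q → J := fun q => H227.lft (H227.rgt q)
    let a3 : V → J := fun i => H227.rgt i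
    have h11 : ∀ i j, i < j → a1 i < a1 j := fun i j h =>
      Sum.Lex.inl_strictMono (Sum.Lex.inl_strictMono h)
    have h12 : ∀ i j, a1 i < a2 j := fun i j => Sum.Lex.inl_strictMono (Sum.Lex.inl_lt_inr _ _)
    have h13 : ∀ i j, a1 i < a3 j := fun i j => Sum.Lex.inl_lt_inr _ _
    have h22 : ∀ i j, i < j → a2 i < a2 j := fun i j h =>
      Sum.Lex.inl_strictMono (Sum.Lex.inr_strictMono h)
    have h23 : ∀ i j, a2 i < a3 j := fun i j => Sum.Lex.inl_lt_inr _ _
    have h33 : ∀ i j, i < j → a3 i < a3 j := fun i j h => Sum.Lex.inr_strictMono h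
    let f0 : Q → I → J := fun α i =>
      if h : i < m then a1 ⟨i, h⟩ else if h' : m < i then a3 ⟨i, h'⟩ else a2 α
    have f1 : ∀ α i (h : i < m), f0 α i = a1 ⟨i, h⟩ := fun α i h => dif_pos h
    have f3 : ∀ α i (h : m < i), f0 α i = a3 ⟨i, h⟩ := fun α i h => by
      simp only [f0, not_lt_of_gt h, h, dif_pos, dif_neg, not_false_eq_true]
    have f2 : ∀ α, f0 α m = a2 α := fun α => by
      simp only [f0, lt_irrefl, dif_neg, not_false_eq_true]
    have fmono : ∀ α, StrictMono (f0 α) := by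
      intro α i j hij
      rcases lt_trichotomy i m with hi | hi | hi <;> rcases lt_trichotomy j m with hj | hj | hj
      · rw [f1 α i hi, f1 α j hj]
        exact h11 _ _ hij
      · rw [f1 α i hi, hj, f2]
        exact h12 _ _
      · rw [f1 α i hi, f3 α j hj]
        exact h13 _ _
      · rw [hi] at hij
        exact absurd hij (lt_asymm hj)
      · rw [hi, hj] at hij
        exact absurd hij (lt_irrefl _)
      · rw [hi, f2, f3 α j hj]
        exact h23 _ _
      · exact absurd (hij.trans hj) (lt_asymm hi)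
      · rw [hj] at hij
        exact absurd hij (lt_asymm hi)
      · rw [f3 α i hi, f3 α j hj]
        exact h33 _ _ hij
    let f : Q → (I ↪o J) := fun α => OrderEmbedding.ofStrictMono (f0 α) (fmono α)
    have hfm : ∀ α, f α m = a2 α := f2
    have hQ : Nonempty Q := by
      rw [← mk_ne_zero_iff, mk_ord_toType]
      exact (bot_le.trans_lt (Order.lt_succ _)).ne'
    obtain ⟨α₀⟩ := hQ
    let k : A ↪o J := (OrderEmbedding.subtype (· ∈ A)).trans (f α₀)
    have hk : ∀ α, f α '' A = range k := by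
      intro α
      have h4 : ∀ i ∈ A, f α i = f α₀ i := by
        intro i hi
        change f0 α i = f0 α₀ i
        rcases lt_trichotomy i m with h | h | h
        · rw [f1 α i h, f1 α₀ i h]
        · exact absurd h hi
        · rw [f3 α i h, f3 α₀ i h]
      ext z
      constructor
      · rintro ⟨i, hi, rfl⟩
        exact ⟨⟨i, hi⟩, (h4 i hi).symm⟩
      · rintro ⟨i, rfl⟩
        exact ⟨i.1, i.2, h4 i.1 i.2⟩
    have h2 : ∀ α : Q, ∃ b : P.obj A, P.map k b = a.c J (a2 α) := by
      intro α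
      have h3 : (a.T I m).map (P.map (f α)).toHom ≤ (sp I lo A).map (P.map (f α)).toHom :=
        map_le_map _ hm
      rw [a.nat, hnat lo inferInstance (f α) A, hk, ← image_univ,
        ← hnat inferInstance inferInstance k univ, hfm] at h3
      obtain ⟨b, -, hb⟩ := h3 (a.mem J (a2 α))
      exact ⟨b, hb⟩
    choose b hb using h2
    have h3 : #Q ≤ #(P.obj A) := mk_le_of_injective (f := b) (by
      intro α β hαβ
      have h4 : a.c J (a2 α) = a.c J (a2 β) := by rw [← hb, ← hb, hαβ]
      have h5 := a.inj J h4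
      rcases lt_trichotomy α β with h6 | h6 | h6
      · exact absurd h5 (h22 _ _ h6).ne
      · exact h6
      · exact absurd h5 (h22 _ _ h6).ne')
    rw [mk_ord_toType] at h3
    exact absurd h3 (not_le.2 (Order.lt_succ _))
  have hind' : ∀ (I : Type u) (lo : LinearOrder I) (A : Set I) (m : I),
      a.T I m ≤ sp I lo A → m ∈ A := by
    intro I lo A m hm
    by_contra hmA
    refine hind I lo m (hm.trans (hmono I lo ?_))
    rintro x hx rfl
    exact hmA hx
  have hfree : ∀ (I : Type u) (lo : LinearOrder I),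
      FreeIn (Str K (P.obj I)) ⊤ (a.T I '' univ) := by
    intro I lo
    have h1 : ∀ i : I, FreeIn (Str K (P.obj I)) ⊤ (a.T I '' {i}) := fun i =>
      hff I {i} (finite_singleton i)
    refine ⟨?_, ?_, ?_⟩
    · rintro _ ⟨i, -, rfl⟩
      exact (h1 i).1 _ ⟨i, rfl, rfl⟩
    · rintro _ ⟨i, -, rfl⟩
      exact (h1 i).2.1 _ ⟨i, rfl, rfl⟩
    · intro B hB
      have h2 : a.T I '' {i | a.T I i ∈ B} = B := by
        ext V
        constructor
        · rintro ⟨i, hi, rfl⟩
          exact hi
        · intro hV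
          obtain ⟨i, -, rfl⟩ := hB hV
          exact ⟨i, hV, rfl⟩
      refine ⟨sp I lo {i | a.T I i ∈ B}, ?_, ?_⟩
      · have h3 := hsp I lo {i | a.T I i ∈ B}
        rwa [h2] at h3
      · rintro _ ⟨i, -, rfl⟩ hi
        exact hind' I lo _ i hi
  have hT : ∀ (I : Type u) (lo : LinearOrder I) (i : I), sp I lo {i} = a.T I i := by
    intro I lo i
    refine lst_unique (hsp I lo {i}) ⟨((hfree I lo).1 _ ⟨i, trivial, rfl⟩).1, le_top, ?_, ?_⟩
    · rintro _ ⟨_, rfl, rfl⟩
      exact le_rfl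
    · intro V _ _ hV
      exact hV _ ⟨i, rfl, rfl⟩
  -- the family
  let T : ∀ (I : Type u) [LinearOrder I], L.Substructure (P.obj I) := fun I lo => sp I lo univ
  have hTK : ∀ (I : Type u) [LinearOrder I], K.le (T I) := fun I lo => (hsp I lo univ).1
  have himg : ∀ {I J : Type u} [LinearOrder I] [LinearOrder J] (i : I ↪o J),
      (T I).map (P.map i).toHom = sp J inferInstance (range i) := by
    intro I J lo lo' i
    rw [← image_univ]
    exact hnat lo lo' i univ
  have hmaps : ∀ {I J : Type u} [LinearOrder I] [LinearOrder J] (i : I ↪o J) (x : T I),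
      P.map i x.1 ∈ T J := by
    intro I J _ lo' i x
    have h1 : P.map i x.1 ∈ (T I).map (P.map i).toHom := ⟨x.1, x.2, rfl⟩
    rw [himg] at h1
    exact hmono J lo' (subset_univ _) h1
  let m : ∀ {I J : Type u} [LinearOrder I] [LinearOrder J] (_ : I ↪o J), (T I ↪[L] T J) :=
    fun {I J} _ _ i => Embedding.codRestrict (T J) ((P.map i).comp (T I).subtype) (hmaps i)
  have hrange : ∀ (I : Type u) [LinearOrder I] (A : Set I),
      (m (OrderEmbedding.subtype (· ∈ A))).toHom.range.map (T I).subtype.toHom =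
        sp I inferInstance A := by
    intro I _ A
    have h1 := himg (OrderEmbedding.subtype (· ∈ A))
    have h2 : range (OrderEmbedding.subtype (· ∈ A)) = A := Subtype.range_coe
    rw [h2] at h1
    rw [← h1]
    ext y
    constructor
    · rintro ⟨_, ⟨z, rfl⟩, rfl⟩
      exact ⟨z.1, z.2, rfl⟩
    · rintro ⟨z, hz, rfl⟩
      exact ⟨_, ⟨⟨z, hz⟩, rfl⟩, rfl⟩
  have hEmb : ∀ (I : Type u) [LinearOrder I], K.Emb (T I).subtype := fun I _ =>
    AEC.emb_subtype.2 (hTK I)
  refine ⟨{ obj := fun I _ => T I, str := fun I _ => inferInstance, map := fun i => m i,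
            map_refl := fun x => Subtype.ext (P.map_refl _),
            map_trans := fun i j x => Subtype.ext (P.map_trans _ _ _),
            emb_map := ?_, mono := ?_, fin := ?_ }, ?_⟩
  · intro I J _ _ i
    refine AEC.Emb.of_comp (hEmb J) ?_
    have h1 : (T J).subtype.comp (m i) = (P.map i).comp (T I).subtype := by
      apply Language.Embedding.ext
      intro x
      rfl
    rw [h1]
    exact AEC.Emb.comp (P.emb i) (hEmb I)
  · intro I lo A B hAB i hi
    have h1 : (m (OrderEmbedding.subtype (· ∈ A))).toHom.range.map (T I).subtype.toHom ≤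
        (m (OrderEmbedding.subtype (· ∈ B))).toHom.range.map (T I).subtype.toHom :=
      Substructure.monotone_map hAB
    rw [hrange, hrange] at h1
    exact hind' I lo B i (((hsp I lo A).2.2.1 _ ⟨i, hi, rfl⟩).trans h1)
  · intro I lo x
    obtain ⟨s, -, hs, hx⟩ := hfin' I lo univ x.1 x.2
    refine ⟨s, hs, ?_⟩
    rw [← hrange] at hx
    obtain ⟨y, hy, hya⟩ := hx
    have : y = x := Subtype.ext hya
    rw [← this]
    exact hy
  · intro I lo
    have htop : (⊤ : L.Substructure (T I)).map (T I).subtype.toHom = T I := by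
      rw [top_map_le, Substructure.range_subtype]
    have himg' : (fun V : L.Substructure (T I) => V.map (T I).subtype.toHom) ''
        (range fun i : I => (m (OrderEmbedding.subtype (· ∈ ({i} : Set I)))).toHom.range) =
        a.T I '' univ := by
      ext V
      constructor
      · rintro ⟨_, ⟨i, rfl⟩, rfl⟩
        refine ⟨i, trivial, ?_⟩
        change a.T I i = (m (OrderEmbedding.subtype (· ∈ ({i} : Set I)))).toHom.range.map
          (T I).subtype.toHom
        rw [hrange, hT]
      · rintro ⟨i, -, rfl⟩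
        refine ⟨_, ⟨i, rfl⟩, ?_⟩
        change (m (OrderEmbedding.subtype (· ∈ ({i} : Set I)))).toHom.range.map
          (T I).subtype.toHom = a.T I i
        rw [hrange, hT]
    have h1 : FreeIn (Str K (P.obj I)) (T I) (a.T I '' univ) :=
      freeIn_le (hTK I) le_top (fun V hV => (hsp I lo univ).2.2.1 V hV) (hfree I lo)
    have h2 : Lst (Str K (P.obj I)) (T I) (a.T I '' univ) (T I) :=
      lst_le (hTK I) le_top (fun V hV => (hsp I lo univ).2.2.1 V hV) (hsp I lo univ)
    constructor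
    · refine freeIn_of_map (T I).subtype (hEmb I) ?_
      rw [htop]
      exact himg' ▸ h1
    · refine lst_of_map (T I).subtype (hEmb I) ?_
      rw [htop]
      exact himg' ▸ h2

/-- **The family**, if the members of finite orders are large. -/
theorem exists_famL (P : PreFamily K) (a : Atoms P) {l' : Cardinal.{u}}
    (hbig : ∀ (I : Type u) [LinearOrder I], Finite I → l' ≤ #(P.obj I))
    (h : ∀ χ : Cardinal.{u}, ∃ κ, χ ≤ κ ∧ K.CategoricalIn κ ∧
      ∃ (M : Type u) (_ : L.Structure M), K.mem M ∧ #M = κ ∧ IsFreeL K l' M) :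
    ∃ F : Fam K, ∀ (I : Type u) [LinearOrder I],
      BasisOf (Str K (F.obj I)) ⊤ (range fun i : I => F.sub {i}) :=
  exists_famL' P a fun I _ s hs => a.free_finiteL hbig h I s hs

/-- A class with a functor of large members with free finite sets of strong substructures, whose
large strong substructures have bases, is categorical in all large cardinals. -/
theorem eventually_of_atoms (P : PreFamily K) (a : Atoms P) {l' : Cardinal.{u}}
    (hbig : ∀ (I : Type u) [LinearOrder I], Finite I → l' ≤ #(P.obj I))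
    (h : ∀ χ : Cardinal.{u}, ∃ κ, χ ≤ κ ∧ K.CategoricalIn κ ∧
      ∃ (M : Type u) (_ : L.Structure M), K.mem M ∧ #M = κ ∧ IsFreeL K l' M) :
    ∃ χ : Cardinal.{u}, ∀ κ, χ ≤ κ → K.CategoricalIn κ := by
  obtain ⟨F, hb⟩ := exists_famL P a hbig h
  obtain ⟨l, hK⟩ := F.exists_ok
  have hK' : F.Ok (max l l') := ⟨hK.ls.mono (le_max_left _ _), fun n =>
    (hK.bd n).trans (le_max_left _ _)⟩
  refine Pw.eventually_of_stdAtL F hK' fun χ => ?_
  obtain ⟨κ, h1, h2, h3⟩ := h (max χ (Order.succ (max (max l l') ℵ₀)))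
  exact ⟨κ, (le_max_left _ _).trans h1, h2, stdAtL_conjAtL hK' (le_max_right _ _)
    (Order.succ_le_iff.1 ((le_max_right _ _).trans h1)) hb h2 h3⟩

end Vale.Agent.P307.H4.E
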