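import Vale.Agent.P307.H4.EStdL
import Vale.Agent.P307.H479.E.FamL
import Vale.Agent.P307.H479.E.EMFL

/-! Classes whose members at unboundedly many categoricity cardinals have bases of large strong
substructures. -/

universe u

open FirstOrder Cardinal Set Function Language

namespace Vale.Agent.P307.H4.E

open H479.E

theorem eventually_of_freeL {l : Cardinal.{u}} {L : Language.{u, u}} (K : AEC L) (hK : K.IsLS l)
    (h : ∀ χ : Cardinal.{u}, ∃ κ, χ ≤ κ ∧ K.CategoricalIn κ ∧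
      ∃ (M : Type u) (_ : L.Structure M), K.mem M ∧ #M = κ ∧ IsFreeL K l M) :
    ∃ χ : Cardinal.{u}, ∀ κ, χ ≤ κ → K.CategoricalIn κ := by
  obtain ⟨κ₀, h1, -, M, _, hM, hMκ, ⟨A, hA⟩, -⟩ := h (max (hanf (2 ^ l)) (Order.succ l))
  obtain ⟨P, hP⟩ := exists_locFam_large hK hM hA
    (by rw [hMκ]; exact (le_max_left _ _).trans h1)
    (by rw [hMκ]; exact Order.succ_le_iff.1 ((le_max_right _ _).trans h1))
  obtain ⟨F, hb⟩ := exists_fam_of_extL K l (fun χ => by
    obtain ⟨κ, h2, h3, N, i, hN, hNκ, hf⟩ := h χ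
    exact ⟨κ, h2, h3, N, i, hN, hNκ, hf.2.1⟩) P hP
  obtain ⟨l', hF⟩ := F.exists_ok
  have hF' : F.Ok (max l' l) := ⟨hF.ls.mono (le_max_left _ _), fun n =>
    (hF.bd n).trans (le_max_left _ _)⟩
  refine Pw.eventually_of_stdAtL F hF' fun χ => ?_
  obtain ⟨κ, h1, h2, h3⟩ := h (max χ (Order.succ (max (max l' l) ℵ₀)))
  exact ⟨κ, (le_max_left _ _).trans h1, h2, stdAtL_conjAtL hF' (le_max_right _ _)
    (Order.succ_le_iff.1 ((le_max_right _ _).trans h1)) hb h2 h3⟩

end Vale.Agent.P307.H4.E
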