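import Vale.Agent.P307.H4.Inj
import Vale.Agent.P307.Ow.OSys

/-!
The group functor of a family indexed by linear orders.
-/

universe u

open FirstOrder Cardinal Function Language

namespace Vale.Agent.P307.H4

open H227

variable {L : Language.{u, u}}

namespace Fam

variable {K : AEC L} (F : Fam K)

/-- `σ` is an automorphism of the structure `obj X` which is the identity on points. -/
structure IsPt {X : Type u} [LinearOrder X] (σ : Equiv.Perm (F.obj X)) : Prop where
  iso : ∃ e : F.obj X ≃[L] F.obj X, ∀ a, e a = σ a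
  mem : ∀ (A : Set X) (a : F.obj X), σ a ∈ F.sub A ↔ a ∈ F.sub A

theorem IsPt.one {X : Type u} [LinearOrder X] : F.IsPt (1 : Equiv.Perm (F.obj X)) where
  iso := ⟨Language.Equiv.refl L _, fun _ => rfl⟩
  mem _ _ := Iff.rfl

variable {F}

theorem IsPt.mul {X : Type u} [LinearOrder X] {σ τ : Equiv.Perm (F.obj X)} (hσ : F.IsPt σ)
    (hτ : F.IsPt τ) : F.IsPt (σ * τ) where
  iso := by
    obtain ⟨e, he⟩ := hσ.iso
    obtain ⟨f, hf⟩ := hτ.iso
    exact ⟨e.comp f, fun a => by
      rw [Equiv.Perm.mul_apply, ← hf, ← he]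
      rfl⟩
  mem x a := by
    rw [Equiv.Perm.mul_apply, hσ.mem, hτ.mem]

theorem IsPt.inv {X : Type u} [LinearOrder X] {σ : Equiv.Perm (F.obj X)} (hσ : F.IsPt σ) :
    F.IsPt σ⁻¹ where
  iso := by
    obtain ⟨e, he⟩ := hσ.iso
    refine ⟨e.symm, fun a => ?_⟩
    rw [Equiv.Perm.eq_inv_iff_eq, ← he]
    exact e.apply_symm_apply a
  mem x a := by
    rw [← hσ.mem x (σ⁻¹ a), show σ (σ⁻¹ a) = a from σ.apply_symm_apply a]

theorem IsPt.ind {X : Type u} [LinearOrder X] {σ : Equiv.Perm (F.obj X)} (hσ : F.IsPt σ) :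
    ∃ e : F.obj X ≃[L] F.obj X, (∀ a, e a = σ a) ∧ F.Ind e.toEmbedding id := by
  obtain ⟨e, he⟩ := hσ.iso
  refine ⟨e, he, injective_id, fun A a => ?_, fun b _ => ⟨e.symm b, e.apply_symm_apply b⟩⟩
  rw [Set.image_id]
  change e a ∈ _ ↔ _
  rw [he, hσ.mem]

/-- An embedding which induces the identity on points is an automorphism of this kind. -/
theorem Ind.exists_isPt {X : Type u} [LinearOrder X] {θ : F.obj X ↪[L] F.obj X}
    (h : F.Ind θ id) : ∃ σ : Equiv.Perm (F.obj X), F.IsPt σ ∧ ∀ a, σ a = θ a := by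
  obtain ⟨e, he⟩ := exists_equiv_of_surj θ (h.surj surjective_id)
  refine ⟨e.toEquiv, ⟨⟨e, fun _ => rfl⟩, fun A a => ?_⟩, he⟩
  change e a ∈ _ ↔ _
  have h1 := h.mem A a
  rw [Set.image_id] at h1
  rwa [he]

variable (F)

/-- The group over the linear order `X`: automorphisms of `obj X` which are the identity on
points. -/
def Gp (X : Type u) [LinearOrder X] : Subgroup (Equiv.Perm (F.obj X)) where
  carrier := {σ | F.IsPt σ}
  mul_mem' h1 h2 := h1.mul h2
  one_mem' := IsPt.one F
  inv_mem' h := h.inv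

variable {F}

/-- The restriction of an automorphism which is the identity on points, along an embedding which
induces a map on points. -/
theorem exists_conj {X Y : Type u} [LinearOrder X] [LinearOrder Y] {G : F.obj X ↪[L] F.obj Y}
    {f : X → Y} (hG : F.Ind G f) (σ : F.Gp Y) : ∃ τ : F.Gp X, ∀ a, G (τ.1 a) = σ.1 (G a) := by
  obtain ⟨s, hs, hs'⟩ := σ.2.ind
  have hr : ∀ a, ∃ b, G b = s (G a) := by
    intro a
    refine hG.rng _ ?_
    have h1 := (hs'.mem (Set.range f) (G a)).2 (hG.mem_range a)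
    rwa [Set.image_id] at h1
  have hr' : ∀ b, ∃ a, s (G a) = G b := by
    intro b
    obtain ⟨s', hs1, hs1'⟩ := σ.2.inv.ind
    have h1 := (hs1'.mem (Set.range f) (G b)).2 (hG.mem_range b)
    rw [Set.image_id] at h1
    obtain ⟨a, ha⟩ := hG.rng _ h1
    refine ⟨a, ?_⟩
    rw [ha]
    change s (s' (G b)) = _
    rw [hs, hs1]
    exact σ.1.apply_symm_apply _
  obtain ⟨e, he⟩ := (SymmetricFamily.isPI_pull (s.toEmbedding.comp G) G).exists_equiv
    (fun a => by
      obtain ⟨b, hb⟩ := hr a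
      exact ⟨b, hb.symm⟩) (fun b => hr' b)
  have he' : ∀ a, G (e a) = σ.1 (G a) := by
    intro a
    have h1 : s (G a) = G (e a) := he a
    rw [← h1, hs]
  refine ⟨⟨e.toEquiv, ⟨e, fun _ => rfl⟩, fun A a => ?_⟩, he'⟩
  change e a ∈ _ ↔ _
  rw [← hG.mem, he', ← hG.mem]
  exact σ.2.mem _ _

/-- The restriction along an order embedding. -/
noncomputable def rs {X Y : Type u} [LinearOrder X] [LinearOrder Y] (i : X ↪o Y) (σ : F.Gp Y) :
    F.Gp X := (exists_conj (ind_map i) σ).choose

theorem rs_spec {X Y : Type u} [LinearOrder X] [LinearOrder Y] (i : X ↪o Y) (σ : F.Gp Y)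
    (a : F.obj X) : F.map i ((rs i σ).1 a) = σ.1 (F.map i a) :=
  (exists_conj (ind_map i) σ).choose_spec a

theorem rs_eq {X Y : Type u} [LinearOrder X] [LinearOrder Y] {i : X ↪o Y} {σ : F.Gp Y}
    {τ : F.Gp X} (h : ∀ a, F.map i (τ.1 a) = σ.1 (F.map i a)) : rs i σ = τ := by
  apply Subtype.ext
  apply Equiv.ext
  intro a
  apply (F.map i).injective
  rw [rs_spec, h]

/-- Gluing along a chain. -/
theorem exists_glue {X ι : Type u} [LinearOrder X] [LinearOrder ι] [WellFoundedLT ι] [Nonempty ι]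
    (S : ι → Set X) (hS : Monotone S) (hc : ∀ x, ∃ i, x ∈ S i) (g : ∀ i, F.Gp (S i))
    (hg : ∀ i j (hij : i ≤ j), rs (incl (hS hij)) (g j) = g i) :
    ∃ h : F.Gp X, ∀ i, rs (inc (S i)) h = g i := by
  choose s hs hs' using fun i => (g i).2.ind
  have hSm : Monotone fun i => F.sub (S i) := fun i j hij => F.sub_mono (hS hij)
  let q : ∀ i, F.obj (S i) ≃[L] F.sub (S i) := fun i => (F.map (inc (S i))).equivRange
  have hq : ∀ i c, (q i c).1 = F.map (inc (S i)) c := fun i c => rfl
  let f : ∀ i, F.sub (S i) ↪[L] F.obj X := fun i =>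
    (F.map (inc (S i))).comp ((s i).toEmbedding.comp (q i).symm.toEmbedding)
  have hf : ∀ i c, f i (q i c) = F.map (inc (S i)) ((g i).1 c) := by
    intro i c
    change F.map (inc (S i)) (s i ((q i).symm (q i c))) = _
    rw [(q i).symm_apply_apply, hs]
  have hfe : ∀ i, K.Emb (f i) := fun i =>
    (F.emb_map _).comp ((hs' i).emb.comp (AEC.Emb.of_equiv _ (K.mem_of_le _ (F.le_sub (S i))).1))
  obtain ⟨G, hG1, hG2⟩ := SymmetricFamily.glue_emb (K := K) (fun i => F.sub (S i)) hSm f hfe (by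
    intro i j hij x
    obtain ⟨c, rfl⟩ := (q i).surjective x
    rw [hf]
    have h1 : Substructure.inclusion (hSm hij) (q i c) = q j (F.map (incl (hS hij)) c) := by
      apply Subtype.ext
      rw [hq, F.map_incl]
      rfl
    change f j (Substructure.inclusion (hSm hij) (q i c)) = _
    rw [h1, hf, ← rs_spec, hg i j hij, F.map_incl])
  have htop : (⨆ i, F.sub (S i)) = ⊤ := by
    rw [eq_top_iff]
    intro x _
    obtain ⟨i, hi⟩ := F.cover S hS hc x
    exact le_iSup (fun i => F.sub (S i)) i hi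
  have hmem : ∀ x : F.obj X, x ∈ ⨆ i, F.sub (S i) := fun x => by
    rw [htop]
    trivial
  obtain ⟨e, he⟩ := exists_equiv_of_surj (⨆ i, F.sub (S i)).subtype fun x => ⟨⟨x, hmem x⟩, rfl⟩
  let H : F.obj X ↪[L] F.obj X := G.comp e.symm.toEmbedding
  have hH : K.Emb H := hG1.comp (AEC.Emb.of_equiv _ (F.mem_obj X))
  have hHv : ∀ i c, H (F.map (inc (S i)) c) = F.map (inc (S i)) ((g i).1 c) := by
    intro i c
    have h2 : e.symm (F.map (inc (S i)) c) =
        Substructure.inclusion (le_iSup (fun i => F.sub (S i)) i) (q i c) := by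
      rw [← e.symm_apply_apply (Substructure.inclusion (le_iSup (fun i => F.sub (S i)) i) (q i c))]
      rw [he]
      rfl
    change G (e.symm _) = _
    rw [h2, ← hf]
    exact hG2 i (q i c)
  have ht : F.Ind H id := Ind.of_local fun w hw => by
    obtain ⟨i, hi⟩ := exists_mem_of_finite S hS hc hw
    refine ⟨S i, hi, ?_⟩
    have h1 : H.comp (F.map (inc (S i))) = (F.map (inc (S i))).comp (s i).toEmbedding := by
      apply Language.Embedding.ext
      intro a
      change H (F.map (inc (S i)) a) = F.map (inc (S i)) (s i a)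
      rw [hHv, hs]
    rw [h1]
    exact (hs' i).comp (ind_map _)
  obtain ⟨σ, hσ1, hσ2⟩ := ht.exists_isPt
  exact ⟨⟨σ, hσ1⟩, fun i => rs_eq fun a => by rw [hσ2, hHv]⟩

theorem exists_ext {X ι : Type u} [LinearOrder X] [LinearOrder ι] [WellFoundedLT ι] [Nonempty ι]
    (S : ι → Set X) (hS : Monotone S) (hc : ∀ x, ∃ i, x ∈ S i)
    (g h : F.Gp X) (hgh : ∀ i, rs (inc (S i)) g = rs (inc (S i)) h) : g = h := by
  apply Subtype.ext
  apply Equiv.ext
  intro a
  obtain ⟨i, c, hc'⟩ := F.cover S hS hc a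
  rw [← hc']
  change g.1 (F.map _ c) = h.1 (F.map _ c)
  rw [← rs_spec, ← rs_spec, hgh i]

theorem incl_eq {I : Type u} [LinearOrder I] {A B : Set I} (h : A ⊆ B) :
    incl h = Ow.inc h := rfl

/-- The group functor of a family indexed by linear orders. -/
noncomputable def toOSys (F : Fam K) (hF : F.Moves) : Ow.OSys.{u} where
  Γ X _ := F.Gp X
  grp X _ := inferInstance
  res i g := rs i g
  res_mul i g h := by
    apply rs_eq
    intro a
    rw [Subgroup.coe_mul, Subgroup.coe_mul, Equiv.Perm.mul_apply, Equiv.Perm.mul_apply,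
      rs_spec, rs_spec]
  res_refl g := by
    apply rs_eq
    intro a
    rw [F.map_refl, F.map_refl]
  res_trans i j g := by
    symm
    apply rs_eq
    intro a
    rw [F.map_trans, F.map_trans, rs_spec, rs_spec]
  glue S hS hc g hg := exists_glue S hS hc g hg
  ext S hS hc g h hgh := exists_ext S hS hc g h hgh
  mv := by
    intro X Y _ _ f B hf hB b
    obtain ⟨G, hG1, hG2⟩ := hF.exists_lift f B hf hB
    obtain ⟨a, ha⟩ := exists_conj hG1 b
    refine ⟨a, ?_, ?_⟩
    · intro w v hwv hb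
      apply rs_eq
      intro c
      apply G.injective
      rw [ha]
      have h1 : G (F.map (Ow.sub w) c) ∈ F.sub v :=
        F.sub_mono (Set.image_subset_iff.2 hwv) ((hG1.mem _ _).2 ⟨c, rfl⟩)
      obtain ⟨d, hd⟩ := h1
      have hd' : F.map (Ow.sub v) d = G (F.map (Ow.sub w) c) := hd
      rw [← hd', ← rs_spec, hb]
      exact hd'.symm
    · intro e he
      apply rs_eq
      intro c
      apply G.injective
      rw [ha]
      have h1 := hG2 e he c
      have h2 := hG2 e he ((rs e b).1 c)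
      change G (F.map (Ow.sub B) _) = _ at h2
      change G (F.map (Ow.sub B) _) = _ at h1
      rw [h2, h1, rs_spec]

end Fam

end Vale.Agent.P307.H4
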