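import Vale.Agent.P307.H4.Comp
import Vale.Agent.P307.H227.Inj

/-!
Every injection between linear orders is induced by an embedding, which is given by the functor on
the part where the injection is increasing.
-/

universe u v

open FirstOrder Cardinal Function Language

namespace Vale.Agent.P307.H4

open H227

variable {L : Language.{u, u}}

namespace Fam

variable {K : AEC L} {F : Fam K}

/-- Every injection between linear orders is induced by an embedding. -/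
theorem Moves.exists_lift (hF : F.Moves) {X Y : Type u} [LinearOrder X] [LinearOrder Y]
    (f : X → Y) (B : Set X) (hf : Injective f) (hB : ∀ x ∈ B, ∀ y ∈ B, f x ≤ f y ↔ x ≤ y) :
    ∃ G : F.obj X ↪[L] F.obj Y, F.Ind G f ∧
      ∀ e : B ↪o Y, (∀ x, e x = f x.1) → ∀ c, G (F.map (inc B) c) = F.map e c := by
  classical
  let e₀ : B ↪o Y := ⟨⟨fun x => f x.1, fun x y h => Subtype.ext (hf h)⟩,
    fun {x y} => hB x.1 x.2 y.1 y.2⟩
  obtain ⟨j1, hj1, hj1'⟩ := exists_sumMap (inc B) (Bᶜ : Set X)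
  obtain ⟨j2, hj2, hj2'⟩ := exists_sumMap e₀ (Bᶜ : Set X)
  let s1 : X → X ⊕ₗ (Bᶜ : Set X) := fun x => if h : x ∈ B then lft x else rgt ⟨x, h⟩
  have hs1 : ∀ x (h : x ∉ B), s1 x = rgt ⟨x, h⟩ := fun x h => dif_neg h
  obtain ⟨G1, hG1, hG1'⟩ := hF.many (lft : X ↪o X ⊕ₗ (Bᶜ : Set X)) s1 Bᶜ
    (by
      intro x hx y hy h
      rw [hs1 x hx, hs1 y hy] at h
      exact congrArg Subtype.val (rgt.injective h))
    (by
      intro x hx v h
      rw [hs1 x hx] at h
      exact lft_ne_rgt _ _ h.symm)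
  let t1 : X → B ⊕ₗ (Bᶜ : Set X) := fun x => if h : x ∈ B then lft ⟨x, h⟩ else rgt ⟨x, h⟩
  have ht1 : ∀ x (h : x ∈ B), t1 x = lft ⟨x, h⟩ := fun x h => dif_pos h
  have ht1' : ∀ x (h : x ∉ B), t1 x = rgt ⟨x, h⟩ := fun x h => dif_neg h
  obtain ⟨θ1, hθ1, hθ1'⟩ := exists_cores_ind hG1 j1 t1 (by
    intro x
    by_cases hx : x ∈ B
    · rw [ht1 x hx, hj1, tt_notMem _ _ (fun h : x ∈ Bᶜ => h hx)]
      rfl
    · rw [ht1' x hx, hj1', tt_mem _ _ hx, hs1 x hx])
  let s2 : B ⊕ₗ (Bᶜ : Set X) → Y ⊕ₗ (Bᶜ : Set X) := fun v =>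
    lft (Sum.elim (fun b : B => f b.1) (fun c : (Bᶜ : Set X) => f c.1) (ofLex v))
  have hs2 : ∀ c, s2 (rgt c) = lft (f c.1) := fun c => rfl
  let X2 : Set (B ⊕ₗ (Bᶜ : Set X)) := Set.range rgt
  obtain ⟨G2, hG2, hG2'⟩ := hF.many j2 s2 X2
    (by
      rintro _ ⟨c, rfl⟩ _ ⟨c', rfl⟩ h
      rw [hs2, hs2] at h
      exact congrArg rgt (Subtype.ext (hf (lft.injective h))))
    (by
      rintro _ ⟨c, rfl⟩ v h
      rw [hs2] at h
      rcases sum_cases v with ⟨b, rfl⟩ | ⟨c', rfl⟩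
      · rw [hj2] at h
        have h1 : f c.1 = f b.1 := lft.injective h
        have h2 := hf h1
        exact c.2 (h2 ▸ b.2)
      · rw [hj2'] at h
        exact lft_ne_rgt _ _ h)
  let t2 : B ⊕ₗ (Bᶜ : Set X) → Y := fun v =>
    Sum.elim (fun b : B => f b.1) (fun c : (Bᶜ : Set X) => f c.1) (ofLex v)
  obtain ⟨θ2, hθ2, hθ2'⟩ := exists_cores_ind hG2 (lft : Y ↪o Y ⊕ₗ (Bᶜ : Set X)) t2 (by
    intro v
    rcases sum_cases v with ⟨b, rfl⟩ | ⟨c, rfl⟩
    · rw [tt_notMem, hj2]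
      · rfl
      · rintro ⟨c, hc⟩
        exact lft_ne_rgt _ _ hc.symm
    · rw [tt_mem _ _ (show rgt c ∈ X2 from ⟨c, rfl⟩)])
  refine ⟨θ2.comp θ1, (hθ1'.comp hθ2').congr fun x => ?_, fun e he c => ?_⟩
  · change t2 (t1 x) = f x
    by_cases hx : x ∈ B
    · rw [ht1 x hx]
      rfl
    · rw [ht1' x hx]
      rfl
  · have he' : e = e₀ := by
      ext x
      exact he x
    subst he'
    have h1 : θ1 (F.map (inc B) c) = F.map lft c := by
      apply (F.map j1).injective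
      rw [hθ1, hG1', ← F.map_trans, ← F.map_trans]
      · refine congrArg (fun g => F.map g c) ?_
        ext b
        exact (hj1 b).symm
      · rw [compl_compl]
        exact ⟨c, rfl⟩
    change θ2 (θ1 _) = _
    rw [h1]
    apply (F.map (lft : Y ↪o Y ⊕ₗ (Bᶜ : Set X))).injective
    rw [hθ2, hG2', ← F.map_trans, ← F.map_trans]
    · refine congrArg (fun g => F.map g c) ?_
      ext b
      exact hj2 b
    · refine F.sub_mono ?_ ((F.mem_range_map (lft : B ↪o B ⊕ₗ (Bᶜ : Set X))).1 ⟨c, rfl⟩)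
      rintro _ ⟨b, rfl⟩ ⟨c', hc'⟩
      exact lft_ne_rgt _ _ hc'.symm

/-- Every bijection between linear orders is induced by an isomorphism. -/
theorem Moves.exists_iso (hF : F.Moves) {X Y : Type u} [LinearOrder X] [LinearOrder Y]
    (f : X ≃ Y) : ∃ e : F.obj X ≃[L] F.obj Y, F.Ind e.toEmbedding f := by
  obtain ⟨G, hG, -⟩ := hF.exists_lift f ∅ f.injective fun x hx => absurd hx (Set.notMem_empty x)
  obtain ⟨e, he⟩ := exists_equiv_of_surj G (hG.surj f.surjective)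
  have h1 : e.toEmbedding = G := by
    apply Language.Embedding.ext
    exact he
  exact ⟨e, h1 ▸ hG⟩

end Fam

end Vale.Agent.P307.H4
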