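import Vale.Agent.P307.H227.NqDefs

/-! A geometric member is geometric over its least strong substructure. -/

universe u

open FirstOrder Cardinal Set Function Language

namespace Vale.Agent.P307.H4

variable {L : Language.{u, u}}

/-- A strong substructure which is isomorphic to the least one is the least one. -/
theorem eq_of_least {K : AEC L} {M : Type u} [L.Structure M] {P P' : L.Substructure M}
    (hP : K.le P) (hmin : ∀ S : L.Substructure M, K.le S → P ≤ S) (hP' : K.le P')
    (φ : P ≃[L] P') : P' = P := by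
  have h : P ≤ P' := hmin P' hP'
  have hemb : K.Emb (P.subtype.comp (φ.symm.toEmbedding.comp (Substructure.inclusion h))) :=
    (AEC.emb_subtype.2 hP).comp ((AEC.Emb.of_equiv φ.symm (K.mem_of_le _ hP').1).comp
      (AEC.sle_of_le_le h hP hP').2)
  refine le_antisymm ?_ h
  intro y hy
  obtain ⟨x, hx⟩ := hmin _ hemb (φ.symm ⟨y, hy⟩).2
  have h1 : φ.symm (Substructure.inclusion h x) = φ.symm ⟨y, hy⟩ := Subtype.ext hx
  have h2 : Substructure.inclusion h x = ⟨y, hy⟩ := φ.symm.injective h1
  have h3 : x.1 = y := congrArg Subtype.val h2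
  rw [← h3]
  exact x.2

/-- An automorphism preserves the least strong substructure. -/
theorem map_least {K : AEC L} {M : Type u} [L.Structure M] {P : L.Substructure M}
    (hP : K.le P) (hmin : ∀ S : L.Substructure M, K.le S → P ≤ S) (σ : M ≃[L] M) :
    P.map σ.toHom = P := by
  refine le_antisymm ?_ (hmin _ (K.le_iso σ P hP))
  rintro _ ⟨x, hx, rfl⟩
  obtain ⟨y, hy, hyx⟩ := hmin _ (K.le_iso σ.symm P hP) hx
  have h1 : σ.symm y = x := hyx
  have h2 : σ x = y := by rw [← h1, σ.apply_symm_apply]
  change σ x ∈ P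
  rw [h2]
  exact hy

/-- A geometric member is geometric over its least strong substructure. -/
theorem isLocGeometric_of_isGeometric {K : AEC L} {l : Cardinal.{u}} (hK : K.IsLS l) {M : Type u}
    [L.Structure M] (hM : K.mem M) (h : Gw.IsGeometric K M) : H227.IsLocGeometric K l M := by
  obtain ⟨X, Mt, e, he⟩ := h
  let P : L.Substructure M := (e (Gw.flat Mt ∅)).1
  have hP : K.le P := (e (Gw.flat Mt ∅)).2
  have hmin : ∀ S : L.Substructure M, K.le S → P ≤ S := by
    intro S hS
    have h1 : Gw.flat Mt ∅ ≤ e.symm ⟨S, hS⟩ := by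
      change Mt.closure ∅ ⊆ (e.symm ⟨S, hS⟩).1
      have h2 := (e.symm ⟨S, hS⟩).2
      rw [← h2.closure]
      exact Mt.closure_subset_closure (Set.empty_subset _)
    have h2 := e.monotone h1
    rw [e.apply_symm_apply] at h2
    exact h2
  refine ⟨P, hP, ?_, fun P' hP' hφ => ?_, X, Mt, ?_⟩
  · obtain ⟨S, h1, -, h3⟩ := hK.2.2 M hM ∅
    have h4 : #P ≤ #S := mk_le_mk_of_subset (hmin S h1)
    refine h4.trans (h3.trans ?_)
    rw [mk_eq_zero, zero_add]
  · obtain ⟨φ⟩ := hφ
    rw [eq_of_least hP hmin hP' φ]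
    exact ⟨Language.Equiv.refl L M, map_least hP hmin _⟩
  · let f : {S : L.Substructure M // K.le S} ≃o {S : L.Substructure M // K.le S ∧ P ≤ S} :=
      { toFun := fun S => ⟨S.1, S.2, hmin S.1 S.2⟩
        invFun := fun S => ⟨S.1, S.2.1⟩
        left_inv := fun _ => rfl
        right_inv := fun _ => rfl
        map_rel_iff' := Iff.rfl }
    refine ⟨e.trans f, fun B B' hB hB' => ?_⟩
    obtain ⟨σ, h1, h2, h3⟩ := he B B' hB hB'
    exact ⟨σ, map_least hP hmin σ, h1, h2, h3⟩

end Vale.Agent.P307.H4
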