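import Vale.Agent.P307.H4.ETopL
import Vale.Agent.P307.Ew.CodeL

/-! Q1 for the classes whose member at the categoricity cardinal has bases of large strong
substructures. -/

universe u

open FirstOrder Cardinal Set Function Language

namespace Vale.Agent.P307.H4.E

/-- Q1 for the classes whose member of size `κ` has bases of large strong substructures. -/
theorem q1_freeL (l : Cardinal.{u}) :
    ∃ μ : Cardinal.{u}, l ≤ μ ∧ ∀ (L : Language.{u, u}) (K : AEC L), K.LS ≤ l →
      ∀ κ : Cardinal.{u}, μ ≤ κ → K.CategoricalIn κ →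
        (∃ (M : Type u) (_ : L.Structure M), K.mem M ∧ #M = κ ∧ IsFreeL K l M) →
          ∀ κ' : Cardinal.{u}, μ ≤ κ' → K.CategoricalIn κ' :=
  Ew.q1_freeL_of (fun K hK h => eventually_of_freeL K hK h) l

end Vale.Agent.P307.H4.E
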