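import Vale.Agent.P307.H4.Gp
import Vale.Agent.P307.H227.Base

/-!
Extension of strong embeddings and the step above the critical cardinal, for families indexed by
linear orders.
-/

universe u v

open FirstOrder Cardinal Function Language

namespace Vale.Agent.P307.H4

open H227

variable {L : Language.{u, u}}

namespace Fam

variable {K : AEC L} {F : Fam K}

/-- Two embeddings which induce the same map on points differ by an automorphism which is the
identity on points. -/
theorem factor {X Y : Type u} [LinearOrder X] [LinearOrder Y] {θ G : F.obj X ↪[L] F.obj Y}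
    {t : X → Y} (hθ : F.Ind θ t) (hG : F.Ind G t) : ∃ g : F.Gp X, ∀ a, θ a = G (g.1 a) := by
  obtain ⟨e, he⟩ := (SymmetricFamily.isPI_pull θ G).exists_equiv
    (fun a => by
      obtain ⟨b, hb⟩ := hG.rng _ (hθ.mem_range a)
      exact ⟨b, hb.symm⟩)
    (fun b => hθ.rng _ (hG.mem_range b))
  have he' : ∀ a, θ a = G (e a) := he
  refine ⟨⟨e.toEquiv, ⟨e, fun _ => rfl⟩, fun A a => ?_⟩, he'⟩
  change e a ∈ _ ↔ _
  rw [← hG.mem, ← he', hθ.mem]

/-- The restriction along an embedding of orders of the same cardinality which is not order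
preserving is surjective. -/
theorem exists_unconj (hF : F.Moves) {X Y : Type u} [LinearOrder X] [LinearOrder Y]
    (hfl : ∀ (Y' : Type u) [LinearOrder Y'] (i : X ↪o Y'), #Y' = #Y →
      Surjective (rs i : F.Gp Y' → F.Gp X))
    {θ : F.obj X ↪[L] F.obj Y} {t : X → Y} (hθ : F.Ind θ t) (g : F.Gp X) :
    ∃ h : F.Gp Y, ∀ a, h.1 (θ a) = θ (g.1 a) := by
  classical
  let C : Set Y := (Set.range t)ᶜ
  let β : X ⊕ₗ C ≃ Y := ofLex.trans
    (((Equiv.ofInjective t hθ.inj).sumCongr (Equiv.refl C)).trans (Equiv.Set.sumCompl _))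
  have hβ : ∀ x, β (lft x) = t x := fun x => rfl
  obtain ⟨e, he⟩ := hF.exists_iso β
  obtain ⟨g1, hg1⟩ := factor hθ
    (((ind_map (lft : X ↪o X ⊕ₗ C)).comp he).congr (t' := t) hβ)
  have hg1' : ∀ a, θ a = e (F.map lft (g1.1 a)) := hg1
  obtain ⟨h', hh'⟩ := hfl (X ⊕ₗ C) lft (mk_congr β) (g1 * g * g1⁻¹)
  have hh : ∀ a, h'.1 (F.map lft (g1.1 a)) = F.map lft (g1.1 (g.1 a)) := by
    intro a
    rw [← rs_spec, hh']
    refine congrArg (F.map (lft : X ↪o X ⊕ₗ C)) ?_
    change g1.1 (g.1 (g1.1.symm (g1.1 a))) = _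
    rw [Equiv.symm_apply_apply]
  obtain ⟨h, hh2⟩ := exists_conj (F := F) (G := e.symm.toEmbedding) (f := β.symm) (by
    refine he.of_comp ?_
    have h1 : e.toEmbedding.comp e.symm.toEmbedding = Language.Embedding.refl L _ := by
      apply Language.Embedding.ext
      intro a
      exact e.apply_symm_apply a
    have h2 : β ∘ β.symm = id := funext fun y => β.apply_symm_apply y
    rw [h1, h2]
    refine ⟨injective_id, fun A a => ?_, fun b _ => ⟨b, rfl⟩⟩
    rw [Set.image_id]
    rfl) h'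
  refine ⟨h, fun a => ?_⟩
  apply e.symm.injective
  have h1 := hh2 (θ a)
  change e.symm (h.1 (θ a)) = h'.1 (e.symm (θ a)) at h1
  rw [h1, hg1', hg1', e.symm_apply_apply, e.symm_apply_apply, hh]

/-- All members of `K` of cardinality `κ` are isomorphic to the members of the family. -/
def Std (F : Fam K) (κ : Cardinal.{u}) : Prop :=
  ∀ (N : Type u) [L.Structure N], K.mem N → #N = κ → ∀ (X : Type u) [LinearOrder X], #X = κ →
    Nonempty (N ≃[L] F.obj X)

theorem Std.of_cat {l κ : Cardinal.{u}} (hK : F.Ok l) (hκ : max l ℵ₀ < κ)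
    (h : K.CategoricalIn κ) : F.Std κ := by
  intro N _ hN hNκ X _ hX
  exact h.2 N (F.obj X) hN (F.mem_obj X) hNκ (by rw [card_obj hK X (by rwa [hX]), hX])

theorem Std.cat {l κ : Cardinal.{u}} (hK : F.Ok l) (hκ : max l ℵ₀ < κ) (h : F.Std κ) :
    K.CategoricalIn κ := by
  have hX : #(κ.ord.ToType) = κ := mk_ord_toType κ
  refine ⟨⟨F.obj κ.ord.ToType, inferInstance, F.mem_obj _, ?_⟩, ?_⟩
  · rw [card_obj hK _ (by rwa [hX]), hX]
  · intro M N _ _ hM hN hMκ hNκ
    obtain ⟨e⟩ := h M hM hMκ κ.ord.ToType hX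
    obtain ⟨f⟩ := h N hN hNκ κ.ord.ToType hX
    exact ⟨f.symm.comp e⟩

/-- A member which embeds strongly into a member of the family is one. -/
theorem std_of_emb (hF : F.Moves) {l : Cardinal.{u}} (hK : F.Ok l) {N Z : Type u}
    [L.Structure N] [LinearOrder Z] (f : N ↪[L] F.obj Z) (hf : K.Emb f)
    (hN : max l ℵ₀ < #N) {X : Type u} [LinearOrder X] (hX : #X = #N) :
    Nonempty (N ≃[L] F.obj X) := by
  obtain ⟨σ, B, hB₀⟩ := F.conj Z f.toHom.range hf
  have hB : (σ.toEmbedding.comp f).toHom.range = F.sub B := by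
    have h0 : (f.toHom.range).map σ.toEmbedding.toHom = F.sub B := hB₀
    rw [← h0]
    ext b
    constructor
    · rintro ⟨n, rfl⟩
      exact ⟨f n, ⟨n, rfl⟩, rfl⟩
    · rintro ⟨_, ⟨n, rfl⟩, rfl⟩
      exact ⟨n, rfl⟩
  have e1 : N ≃[L] (σ.toEmbedding.comp f).toHom.range := (σ.toEmbedding.comp f).equivRange
  rw [hB] at e1
  have e2 : F.obj B ≃[L] F.sub B := (F.map (inc B)).equivRange
  have h1 : #(F.obj B) = #N := mk_congr (e1.symm.comp e2).toEquiv
  have h2 : max l ℵ₀ < #B := by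
    by_contra h
    rw [not_lt] at h
    have h3 : #N ≤ max l ℵ₀ := by
      rw [← h1]
      exact (card_obj_le hK B).trans
        (add_le_of_le (le_max_right _ _) h (le_max_left _ _))
    exact absurd hN (not_lt.2 h3)
  have h3 : #X = #B := by rw [hX, ← h1, card_obj hK B h2]
  obtain ⟨i⟩ : Nonempty (B ≃ X) := Cardinal.eq.1 h3.symm
  obtain ⟨e3, -⟩ := hF.exists_iso i
  exact ⟨e3.comp (e2.symm.comp e1)⟩

/-- Extension of a strong embedding to a strong extension of the same cardinality. -/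
theorem extend_emb (hF : F.Moves) {U V Z : Type u} [L.Structure U] [L.Structure V]
    [LinearOrder Z] (j : U ↪[L] V)
    (hj : K.Emb j) (hUV : #V = #U) (hU : ℵ₀ ≤ #U) (hstd : F.Std #U)
    (hfl : ∀ (X Y : Type u) [LinearOrder X] [LinearOrder Y] (i : X ↪o Y), #X = #U → #Y = #U →
      Surjective (rs i : F.Gp Y → F.Gp X))
    (f : U ↪[L] F.obj Z) (hf : K.Emb f) (hZ : #U < #Z) :
    ∃ f' : V ↪[L] F.obj Z, K.Emb f' ∧ ∀ u, f' (j u) = f u := by
  let X : Type u := (#U).ord.ToType
  have hX : #X = #U := mk_ord_toType _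
  obtain ⟨φ⟩ := hstd U hj.mem_left rfl X hX
  obtain ⟨ψ₀⟩ := hstd V hj.mem_right hUV X hX
  have hφ : K.Emb φ.symm.toEmbedding := AEC.Emb.of_equiv _ (F.mem_obj X)
  have hψ₀ : K.Emb ψ₀.toEmbedding := AEC.Emb.of_equiv _ hj.mem_right
  obtain ⟨σ₁, t, ht₀⟩ := exists_ind (ψ₀.toEmbedding.comp (j.comp φ.symm.toEmbedding))
    (hψ₀.comp (hj.comp hφ))
  let ψ : V ≃[L] F.obj X := σ₁.comp ψ₀
  have hψ : K.Emb ψ.toEmbedding := AEC.Emb.of_equiv _ hj.mem_right
  have ht : F.Ind (ψ.toEmbedding.comp (j.comp φ.symm.toEmbedding)) t := ht₀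
  obtain ⟨σ₂, t', ht'₀⟩ := exists_ind (f.comp φ.symm.toEmbedding) (hf.comp hφ)
  have ht' : F.Ind ((σ₂.toEmbedding.comp f).comp φ.symm.toEmbedding) t' := ht'₀
  obtain ⟨s, hs⟩ := SymmetricFamily.exists_extend (⟨t, ht.inj⟩ : X ↪ X) (⟨t', ht'.inj⟩ : X ↪ Z)
    (hU.trans hZ.le) (by rwa [hX])
  obtain ⟨G, hG, -⟩ := hF.exists_lift s ∅ s.injective fun x hx => absurd hx (Set.notMem_empty x)
  obtain ⟨g, hg⟩ := factor ht' ((ht.comp hG).congr (t' := t') fun x => DFunLike.congr_fun hs x)
  obtain ⟨h, hh⟩ := exists_unconj hF (fun Y' _ i hY' => hfl X Y' i hX (hY'.trans hX)) ht g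
  obtain ⟨e, he, he'⟩ := h.2.ind
  refine ⟨σ₂.symm.toEmbedding.comp (G.comp (e.toEmbedding.comp ψ.toEmbedding)), ?_,
    fun u => ?_⟩
  · exact (AEC.Emb.of_equiv _ (F.mem_obj Z)).comp (hG.emb.comp (he'.emb.comp hψ))
  · have h1 := hh (φ u)
    change h.1 (ψ (j (φ.symm (φ u)))) = ψ (j (φ.symm (g.1 (φ u)))) at h1
    rw [φ.symm_apply_apply] at h1
    have h2 := hg (φ u)
    change σ₂ (f (φ.symm (φ u))) = G (ψ (j (φ.symm (g.1 (φ u))))) at h2
    rw [φ.symm_apply_apply] at h2
    change σ₂.symm (G (e (ψ (j u)))) = f u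
    rw [he, h1, ← h2, σ₂.symm_apply_apply]

/-- The step above the critical cardinal. -/
theorem std_step (hF : F.Moves) {l θ κ : Cardinal.{u}} (hK : F.Ok l)
    (hθ : max l ℵ₀ < θ) (hθκ : θ < κ) (hstd : ∀ κ', θ ≤ κ' → κ' < κ → F.Std κ')
    (hfl : ∀ (X Y : Type u) [LinearOrder X] [LinearOrder Y] (i : X ↪o Y), #X = #Y → θ ≤ #X →
      Surjective (rs i : F.Gp Y → F.Gp X)) : F.Std κ := by
  intro N _ hN hNκ X _ hX
  have hθ0 : ℵ₀ ≤ θ := (le_max_right _ _).trans hθ.le
  have hlθ : l ≤ θ := (le_max_left _ _).trans hθ.le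
  have hκ0 : ℵ₀ ≤ κ := hθ0.trans hθκ.le
  obtain ⟨en⟩ : Nonempty (κ.ord.ToType ≃ N) := Cardinal.eq.1 (by rw [mk_ord_toType, hNκ])
  obtain ⟨D, hD⟩ : ∃ D : Set N, #D = θ := le_mk_iff_exists_set.1 (by rw [hNκ]; exact hθκ.le)
  choose hull hh1 hh2 hh3 using hK.ls.2.2 N hN
  let S : κ.ord.ToType → L.Substructure N := wellFounded_lt.fix fun a rec =>
    hull (D ∪ {en a} ∪ ⋃ b : Set.Iio a, (rec b.1 b.2 : Set N))
  have hS : ∀ a, S a = hull (D ∪ {en a} ∪ ⋃ b : Set.Iio a, (S b.1 : Set N)) :=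
    fun a => wellFounded_lt.fix_eq _ a
  have hSle : ∀ a, K.le (S a) := fun a => by rw [hS]; exact hh1 _
  have hSD : ∀ a, D ⊆ S a := fun a => by
    rw [hS]
    exact (Set.subset_union_left.trans Set.subset_union_left).trans (hh2 _)
  have hSen : ∀ a, en a ∈ S a := fun a => by
    rw [hS]
    exact hh2 _ (Or.inl (Or.inr rfl))
  have hSlt : ∀ b a, b < a → S b ≤ S a := fun b a h => by
    intro x hx
    rw [hS a]
    exact hh2 _ (Or.inr (Set.mem_iUnion.2 ⟨⟨b, h⟩, hx⟩))
  have hSm : Monotone S := fun b a h => by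
    rcases h.eq_or_lt with rfl | h
    · exact le_rfl
    · exact hSlt b a h
  have hcard : ∀ a, #(S a) ≤ θ + #(Set.Iio a) := by
    intro a
    induction a using WellFoundedLT.induction with
    | ind a ih =>
      have hm : ℵ₀ ≤ θ + #(Set.Iio a) := hθ0.trans (self_le_add_right _ _)
      have h1 : #(⋃ b : Set.Iio a, (S b.1 : Set N)) ≤ θ + #(Set.Iio a) := by
        refine (mk_iUnion_le _).trans ?_
        calc #(Set.Iio a) * ⨆ b : Set.Iio a, #(S b.1)
            ≤ (θ + #(Set.Iio a)) * (θ + #(Set.Iio a)) := by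
              refine mul_le_mul' (self_le_add_left _ _) (ciSup_le' fun b => ?_)
              refine (ih b.1 b.2).trans (add_le_add le_rfl ?_)
              exact mk_le_mk_of_subset fun x hx => Set.mem_Iio.2 (lt_trans (Set.mem_Iio.1 hx) b.2)
          _ = θ + #(Set.Iio a) := mul_eq_self hm
      rw [hS]
      refine (hh3 _).trans ?_
      have h2 : #(D ∪ {en a} ∪ ⋃ b : Set.Iio a, (S b.1 : Set N) : Set N) ≤ θ + #(Set.Iio a) := by
        refine (mk_union_le _ _).trans (add_le_of_le hm ((mk_union_le _ _).trans ?_) h1)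
        rw [hD, mk_singleton]
        exact add_le_of_le hm (self_le_add_right _ _) (one_le_aleph0.trans hm)
      exact add_le_of_le hm h2 (hlθ.trans (self_le_add_right _ _))
  have hlt : ∀ a, #(S a) < κ := fun a => by
    refine (hcard a).trans_lt (add_lt_of_lt hκ0 hθκ ?_)
    exact mk_Iio_toType_ord_lt a
  have hge : ∀ a, θ ≤ #(S a) := fun a => by
    rw [← hD]
    exact mk_le_mk_of_subset (hSD a)
  let Z : Type u := κ.ord.ToType
  have hZ : #Z = κ := mk_ord_toType κ
  obtain ⟨f, hf1, hf2⟩ := exists_coherent_family (fun a => (S a ↪[L] F.obj Z))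
    (fun {b a} h g => g.comp (Substructure.inclusion (hSlt b a h))) (fun a g => K.Emb g) (by
      intro a g hg1 hg2
      by_cases hne : Nonempty (Set.Iio a)
      · have hinc : Monotone fun b : Set.Iio a => S b.1 := fun b c h => hSm h
        obtain ⟨G, hG1, hG2⟩ := SymmetricFamily.glue_emb (K := K) (fun b : Set.Iio a => S b.1) hinc
          (fun b => g b.1 b.2) (fun b => hg1 b.1 b.2) (by
            intro b c hbc x
            rcases hbc.eq_or_lt with rfl | h
            · rfl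
            · have h1 := hg2 b.1 c.1 h c.2
              exact DFunLike.congr_fun h1 x)
        have hU : K.le (⨆ b : Set.Iio a, S b.1) :=
          K.chain_smooth _ (fun b c h => hinc h) fun b => hSle b.1
        have hUa : (⨆ b : Set.Iio a, S b.1) ≤ S a := iSup_le fun b => hSlt b.1 a b.2
        have hj := (AEC.sle_of_le_le hUa hU (hSle a)).2
        have hDU : D ⊆ (⨆ b : Set.Iio a, S b.1 : L.Substructure N) := by
          obtain ⟨b⟩ := hne
          exact (hSD b.1).trans (le_iSup (fun b : Set.Iio a => S b.1) b)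
        have hUθ : θ ≤ #(⨆ b : Set.Iio a, S b.1 : L.Substructure N) := by
          rw [← hD]
          exact mk_le_mk_of_subset hDU
        have hUeq : #(S a) = #(⨆ b : Set.Iio a, S b.1 : L.Substructure N) := by
          refine le_antisymm ?_ (mk_le_mk_of_subset hUa)
          have hU0 := hθ0.trans hUθ
          rw [hS]
          refine (hh3 _).trans (add_le_of_le hU0 ?_ (hlθ.trans hUθ))
          have h3 : (D ∪ {en a} ∪ ⋃ b : Set.Iio a, (S b.1 : Set N) : Set N) ⊆
              insert (en a) ((⨆ b : Set.Iio a, S b.1 : L.Substructure N) : Set N) := by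
            rintro x ((hx | hx) | hx)
            · exact Or.inr (hDU hx)
            · exact Or.inl hx
            · obtain ⟨b, hb⟩ := Set.mem_iUnion.1 hx
              exact Or.inr (le_iSup (fun b : Set.Iio a => S b.1) b hb)
          refine (mk_le_mk_of_subset h3).trans (mk_insert_le.trans ?_)
          exact add_le_of_le hU0 le_rfl (one_le_aleph0.trans hU0)
        obtain ⟨f', h1, h2⟩ := extend_emb hF (Substructure.inclusion hUa) hj hUeq
          (hθ0.trans hUθ) (hstd _ hUθ (hUeq.symm.trans_lt (hlt a)))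
          (fun X Y _ _ i hX hY => hfl X Y i (hX.trans hY.symm) (hUθ.trans hX.ge)) G hG1
          (by rw [hZ]; exact hUeq.symm.trans_lt (hlt a))
        refine ⟨f', h1, fun b hb => ?_⟩
        apply Language.Embedding.ext
        intro x
        have h3 := h2 (Substructure.inclusion (le_iSup (fun b : Set.Iio a => S b.1) ⟨b, hb⟩) x)
        have h4 := hG2 ⟨b, hb⟩ x
        change f' (Substructure.inclusion _ x) = g b hb x
        rw [← h4, ← h3]
        rfl
      · obtain ⟨e⟩ := hstd _ (hge a) (hlt a) (S a) (K.mem_of_le _ (hSle a)).1 rfl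
          (#(S a)).ord.ToType (mk_ord_toType _)
        obtain ⟨i⟩ : Nonempty ((#(S a)).ord.ToType ↪ Z) := by
          rw [← Cardinal.le_def, mk_ord_toType, hZ]
          exact (hlt a).le
        obtain ⟨G, hG, -⟩ := hF.exists_lift i ∅ i.injective fun x hx =>
          absurd hx (Set.notMem_empty x)
        refine ⟨G.comp e.toEmbedding, ?_, fun b hb => absurd ⟨⟨b, hb⟩⟩ hne⟩
        exact hG.emb.comp (AEC.Emb.of_equiv e (K.mem_of_le _ (hSle a)).1))
  have hne : Nonempty κ.ord.ToType := by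
    rw [← mk_ne_zero_iff, mk_ord_toType]
    exact (aleph0_pos.trans_le hκ0).ne'
  obtain ⟨G, hG1, -⟩ := SymmetricFamily.glue_emb (K := K) S hSm f hf1 (by
    intro b c hbc x
    rcases hbc.eq_or_lt with rfl | h
    · rfl
    · exact DFunLike.congr_fun (hf2 b c h) x)
  have htop : (⨆ a, S a) = ⊤ := by
    rw [eq_top_iff]
    intro x _
    have h1 := hSen (en.symm x)
    rw [en.apply_symm_apply] at h1
    exact le_iSup S (en.symm x) h1
  have e1 : N ≃[L] (⊤ : L.Substructure N) := Substructure.topEquiv.symm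
  rw [← htop] at e1
  refine std_of_emb hF hK (G.comp e1.toEmbedding) (hG1.comp (AEC.Emb.of_equiv e1 hN)) ?_ ?_
  · rw [hNκ]
    exact hθ.trans hθκ
  · rw [hX, hNκ]

end Fam

end Vale.Agent.P307.H4
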